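import Vale.Agent.P093.Final.Static
import Vale.Agent.P093.U.Stair
import Vale.Agent.P093.U.Lift

/-!
# P093, part A, block Conv: from the family of maps `a D` to `HasCSmall`

* `isClosedEmbedding_thFib` : the fibre inclusion `ℝ^t ≃ ℂ^n → Th n J` is a closed embedding;
* `exists_realEquiv` : a real linear homeomorphism `ℝ^t ≃ ℂ^n`;
* `hasCSmall_of_map` : a continuous family `a D : V⁺ → (Th n J)⁺`, a homotopy from the fibre inclusion
  to `a D₀`, continuous data `Dx : X → Dt`, and small order on `{a (Dx x) v ≠ ∞}` give `HasCSmall`.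
-/

open Set Filter Topology OnePoint Matrix
open Vale.Agent.P251.St (Space)
open Vale.Agent.P251.G (IsProj Th nsq)
open Vale.Agent.P093.Final (thFib thSpace thGood_th HasCSmall)

namespace Vale.Agent.P093.A5

universe u

section fib

variable {n : ℕ} {J : Type} [Fintype J] [DecidableEq J]

theorem continuous_thFib (f : Fin n → J) (hf : Function.Injective f) :
    Continuous (thFib f hf : (Fin n → ℂ) → Th n J) := by
  have h1 : Continuous fun v : Fin n → ℂ =>
      (Vale.Agent.P251.G.injMat f * (1 : Matrix (Fin n) (Fin n) ℂ) *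
        (Vale.Agent.P251.G.injMat f)ᴴ, Vale.Agent.P251.G.injMat f *ᵥ v) := by fun_prop
  exact h1.subtype_mk _

theorem thFib_v (f : Fin n → J) (hf : Function.Injective f) (v : Fin n → ℂ) :
    (thFib f hf v).v = Vale.Agent.P251.G.injMat f *ᵥ v := rfl

theorem nsq_thFib (f : Fin n → J) (hf : Function.Injective f) (v : Fin n → ℂ) :
    nsq (thFib f hf v).v = nsq v := by
  rw [thFib_v]
  exact Vale.Agent.P251.G.Th.nsq_isom (Vale.Agent.P251.G.injMat_isom hf) v

theorem isClosedEmbedding_thFib_id (f : Fin n → J) (hf : Function.Injective f) :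
    IsClosedEmbedding (thFib f hf : (Fin n → ℂ) → Th n J) := by
  refine IsClosedEmbedding.of_continuous_injective_isClosedMap (continuous_thFib f hf) ?_ ?_
  · intro v w h
    have h1 : Vale.Agent.P251.G.injMat f *ᵥ v = Vale.Agent.P251.G.injMat f *ᵥ w := by
      rw [← thFib_v f hf, ← thFib_v f hf, h]
    funext i
    have h2 := congrFun h1 (f i)
    rwa [Vale.Agent.P251.G.injMat_mulVec f hf, Vale.Agent.P251.G.injMat_mulVec f hf] at h2
  · refine IsProperMap.isClosedMap ?_
    rw [isProperMap_iff_tendsto_cocompact]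
    refine ⟨continuous_thFib f hf, ?_⟩
    rw [Vale.Agent.P251.G.Th.tendsto_cocompact_iff]
    simp only [nsq_thFib]
    rw [Vale.Agent.P251.G.cocompact_vec]
    exact tendsto_comap

theorem isClosedEmbedding_thFib {t : ℕ} (f : Fin n → J) (hf : Function.Injective f)
    (e : (Fin t → ℝ) ≃L[ℝ] (Fin n → ℂ)) :
    IsClosedEmbedding (fun v => thFib f hf (e v) : (Fin t → ℝ) → Th n J) :=
  (isClosedEmbedding_thFib_id f hf).comp e.toHomeomorph.isClosedEmbedding

theorem exists_realEquiv (n : ℕ) : ∃ t : ℕ, Nonempty ((Fin t → ℝ) ≃L[ℝ] (Fin n → ℂ)) :=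
  ⟨Module.finrank ℝ (Fin n → ℂ), ⟨ContinuousLinearEquiv.ofFinrankEq (by simp)⟩⟩

end fib

/-- **from a family of maps to `HasCSmall`** -/
theorem hasCSmall_of_map {X : Type u} [TopologicalSpace X] {𝒲 : Set (Set X)} {d n : ℕ}
    {J : Type} [Fintype J] [DecidableEq J] {V : Type} [AddCommGroup V] [Module ℝ V]
    [TopologicalSpace V] {Dt : Type*} [TopologicalSpace Dt] [AddCommGroup Dt] [Module ℝ Dt]
    [ContinuousAdd Dt] [ContinuousSMul ℝ Dt]
    {a : Dt → OnePoint V → OnePoint (Th n J)}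
    (ha : Continuous fun q : Dt × OnePoint V => a q.1 q.2) (hinf : ∀ D, a D ∞ = ∞) {D₀ : Dt}
    {f : Fin n → J} (hf : Function.Injective f) (L : V ≃L[ℝ] (Fin n → ℂ))
    {K : unitInterval → OnePoint V → OnePoint (Th n J)}
    (hK : Continuous fun q : unitInterval × OnePoint V => K q.1 q.2) (hKinf : ∀ τ, K τ ∞ = ∞)
    (hK0 : ∀ v : V, K 0 (OnePoint.some v) = OnePoint.some (thFib f hf (L v)))
    (hK1 : ∀ v : V, K 1 (OnePoint.some v) = a D₀ (OnePoint.some v))
    {Dx : X → Dt} (hDx : Continuous Dx)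
    (hs : U.SmallOn 𝒲 (Prod.fst : X × OnePoint V → X) {q | a (Dx q.1) q.2 ≠ ∞} (fun _ => d)) :
    HasCSmall 𝒲 d := by
  obtain ⟨t, ⟨e⟩⟩ := exists_realEquiv n
  let φ : (Fin t → ℝ) ≃ₜ V := (e.trans L.symm).toHomeomorph
  let ψ : OnePoint (Fin t → ℝ) ≃ₜ OnePoint V := φ.onePointCongr
  have hψi : ψ ∞ = ∞ := rfl
  have hψ : ∀ v : Fin t → ℝ, ψ (OnePoint.some v) = OnePoint.some (L.symm (e v)) := fun v => rfl
  refine ⟨t, thSpace n J, fun v => thFib f hf (e v), isClosedEmbedding_thFib f hf e,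
    thGood_th f hf e, ?_⟩
  refine ⟨fun τ x v => if (τ : ℝ) ≤ 1 / 2 then K (U.LiftAux.cl (2 * τ)) (ψ v) else
    a ((1 - (U.LiftAux.cl (2 * τ - 1) : ℝ)) • D₀ + (U.LiftAux.cl (2 * τ - 1) : ℝ) • Dx x) (ψ v),
    ?_, ?_, ?_, ?_⟩
  · have h0 := U.LiftAux.continuous_cl
    refine Continuous.if_le ?_ ?_ (continuous_subtype_val.comp continuous_fst) continuous_const ?_
    · exact hK.comp (g := fun q : unitInterval × OnePoint V => K q.1 q.2)
        (f := fun q : unitInterval × X × OnePoint (Fin t → ℝ) =>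
          (U.LiftAux.cl (2 * q.1), ψ q.2.2)) (by fun_prop)
    · exact ha.comp (g := fun q : Dt × OnePoint V => a q.1 q.2)
        (f := fun q : unitInterval × X × OnePoint (Fin t → ℝ) =>
          ((1 - (U.LiftAux.cl (2 * q.1 - 1) : ℝ)) • D₀ +
            (U.LiftAux.cl (2 * q.1 - 1) : ℝ) • Dx q.2.1, ψ q.2.2)) (by fun_prop)
    · rintro ⟨τ, x, v⟩ hτ
      simp only at hτ ⊢
      rw [hτ, U.LiftAux.cl_of_one_le (by norm_num), U.LiftAux.cl_of_nonpos (by norm_num)]
      have h1 : (1 - ((0 : unitInterval) : ℝ)) • D₀ + ((0 : unitInterval) : ℝ) • Dx x = D₀ := by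
        simp
      rw [h1]
      induction v using OnePoint.rec with
      | infty => rw [hψi, hKinf, hinf]
      | coe v => rw [hψ, hK1]
  · intro τ x
    simp only [hψi]
    split_ifs
    · exact hKinf _
    · exact hinf _
  · intro x v
    have h1 : ((0 : unitInterval) : ℝ) ≤ 1 / 2 := by norm_num
    simp only [if_pos h1]
    rw [U.LiftAux.cl_of_nonpos (by norm_num)]
    induction v using OnePoint.rec with
    | infty => rw [hψi, hKinf]; rfl
    | coe v =>
      rw [hψ, hK0, L.apply_symm_apply]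
      rfl
  · have h1 : ¬ ((1 : unitInterval) : ℝ) ≤ 1 / 2 := by norm_num
    have h2 : ∀ (x : X) (v : OnePoint (Fin t → ℝ)),
        (if ((1 : unitInterval) : ℝ) ≤ 1 / 2 then K (U.LiftAux.cl (2 * ((1 : unitInterval) : ℝ))) (ψ v)
          else a ((1 - (U.LiftAux.cl (2 * ((1 : unitInterval) : ℝ) - 1) : ℝ)) • D₀ +
            (U.LiftAux.cl (2 * ((1 : unitInterval) : ℝ) - 1) : ℝ) • Dx x) (ψ v)) =
        a (Dx x) (ψ v) := by
      intro x v
      rw [if_neg h1, U.LiftAux.cl_of_one_le (by norm_num)]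
      congr 1
      simp
    simp only [h2]
    have h3 := hs.comp (φ := fun q : X × OnePoint (Fin t → ℝ) => (q.1, ψ q.2))
      (K' := {q | a (Dx q.1) (ψ q.2) ≠ ∞}) (by fun_prop) (fun q hq => hq)
    exact h3

end Vale.Agent.P093.A5
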