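import Vale.Agent.P093.A5.Map
import Vale.Agent.P093.A5.Conv
import Vale.Agent.P093.A.ZSet
import Vale.Agent.P093.A.Nbhd

/-!
# P093, part A: `CSmall` from weights on the common zero set

* `smallOn_aMap` : weights on `ZSET M F` give weights on `{a(Λ (M, F), v) ≠ ∞}` for large `Λ`;
* `ZeroOK` : the statement of the block ZERO (T6);
* `hasCSmall_of_zset`, `zThm_of` : half 1 of part A.
-/

open Matrix OnePoint Topology Filter Set
open Vale.Agent.P251.G (IsProj Th nsq Gr)
open Vale.Agent.P093.Final (thFib HasCSmall)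

namespace Vale.Agent.P093.A5

universe u

section

variable {p : ℕ} {I : Type} [Fintype I] [DecidableEq I] {N : Tube (Fin (p + 1))}
  {N2 : Tube (Fin 2)} {n : ℕ}

/-- `P` as a line -/
noncomputable def PG (N : Tube (Fin (p + 1))) (v : VV (p + 1) I) : Gr 1 (Fin (p + 1)) :=
  ⟨PP N v, N.isProj (hm v.1)⟩

/-- `Q_i` as a line -/
noncomputable def QG (N2 : Tube (Fin 2)) (v : VV (p + 1) I) (i : I) : Gr 1 (Fin 2) :=
  ⟨QQ N2 v i, N2.isProj (hm (v.2 i))⟩

/-- the point of the base under `v` -/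
noncomputable def basePt (N : Tube (Fin (p + 1))) (N2 : Tube (Fin 2)) (v : VV (p + 1) I) :
    A.Base p I :=
  (PG N v, fun i => QG N2 v i)

omit [Fintype I] [DecidableEq I] in
theorem continuousOn_basePt :
    ContinuousOn (basePt (I := I) N N2) (tubeSet (p + 1) I N N2) := by
  have h1 : ContinuousOn (PG (I := I) N) (tubeSet (p + 1) I N N2) := by
    have h := continuousOn_PP (I := I) N N2
    rw [continuousOn_iff_continuous_domRestrict] at h ⊢
    exact Continuous.subtype_mk h fun v => N.isProj (hm v.1.1)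
  have h2 : ∀ i, ContinuousOn (fun v : VV (p + 1) I => QG N2 v i) (tubeSet (p + 1) I N N2) := by
    intro i
    have h := continuousOn_QQ (I := I) N N2 i
    rw [continuousOn_iff_continuous_domRestrict] at h ⊢
    exact Continuous.subtype_mk h fun v => N2.isProj (hm (v.1.2 i))
  exact h1.prodMk (continuousOn_pi.2 h2)

/-- the map `{a ≠ ∞} → X × Base` -/
noncomputable def toBase {X : Type*} (N : Tube (Fin (p + 1))) (N2 : Tube (Fin 2))
    (q : X × OnePoint (VV (p + 1) I)) : X × A.Base p I :=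
  (q.1, q.2.elim (basePt N N2 0) fun v => basePt N N2 v)

omit [Fintype I] [DecidableEq I] in
theorem continuousOn_toBase [Finite I] {X : Type*} [TopologicalSpace X] :
    ContinuousOn (toBase (X := X) (I := I) N N2)
      {q | ∃ v, q.2 = OnePoint.some v ∧ v ∈ tubeSet (p + 1) I N N2} := by
  set e : X × VV (p + 1) I → X × OnePoint (VV (p + 1) I) := fun q => (q.1, OnePoint.some q.2)
    with he
  have heo : IsOpenEmbedding e := IsOpenEmbedding.id.prodMap OnePoint.isOpenEmbedding_coe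
  rintro ⟨x, _⟩ ⟨v, rfl, hv⟩
  refine ContinuousAt.continuousWithinAt ?_
  change ContinuousAt _ (e (x, v))
  rw [← heo.continuousAt_iff]
  have h1 : ContinuousAt (basePt N N2) v :=
    (continuousOn_basePt (N := N) (N2 := N2)).continuousAt ((isOpen_tubeSet N N2).mem_nhds hv)
  have h2 : ContinuousAt (fun q : X × VV (p + 1) I => basePt N N2 q.2) (x, v) :=
    ContinuousAt.comp (x := (x, v)) (f := Prod.snd) (g := basePt N N2) h1 continuousAt_snd
  exact ContinuousAt.prodMk continuousAt_fst h2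

/-- the size of the section -/
def secSize {X : Type*} (M : X → Matrix (Fin p) (Fin (p + 1)) ℂ)
    (F : I → X → Matrix (Fin 2) (Fin (p + 1)) ℂ) (z : X × A.Base p I) : ℝ :=
  hsq (M z.1 * z.2.1.P) + ∑ i, hsq ((1 - (z.2.2 i).P) * F i z.1 * z.2.1.P)

omit [DecidableEq I] in
theorem secSize_nonneg {X : Type*} (M : X → Matrix (Fin p) (Fin (p + 1)) ℂ)
    (F : I → X → Matrix (Fin 2) (Fin (p + 1)) ℂ) (z : X × A.Base p I) : 0 ≤ secSize M F z :=
  add_nonneg (hsq_nonneg _) (Finset.sum_nonneg fun _ _ => hsq_nonneg _)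

omit [DecidableEq I] in
theorem secSize_eq_zero {X : Type*} (M : X → Matrix (Fin p) (Fin (p + 1)) ℂ)
    (F : I → X → Matrix (Fin 2) (Fin (p + 1)) ℂ) :
    {z | secSize M F z = 0} = A.ZSET M F := by
  ext z
  simp only [secSize, A.ZSET, mem_ofPred_eq]
  rw [add_eq_zero_iff_of_nonneg (hsq_nonneg _) (Finset.sum_nonneg fun _ _ => hsq_nonneg _),
    hsq_eq_zero, Finset.sum_eq_zero_iff_of_nonneg fun _ _ => hsq_nonneg _]
  simp [hsq_eq_zero]

omit [DecidableEq I] in
theorem continuous_secSize {X : Type*} [TopologicalSpace X]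
    {M : X → Matrix (Fin p) (Fin (p + 1)) ℂ} {F : I → X → Matrix (Fin 2) (Fin (p + 1)) ℂ}
    (hM : Continuous M) (hF : ∀ i, Continuous (F i)) : Continuous (secSize M F) := by
  have h0 : Continuous fun z : X × A.Base p I => z.2.1.P :=
    Gr.continuous_P.comp (continuous_fst.comp continuous_snd)
  have h1 : ∀ i, Continuous fun z : X × A.Base p I => (z.2.2 i).P := fun i =>
    Gr.continuous_P.comp ((continuous_apply i).comp (continuous_snd.comp continuous_snd))
  refine (continuous_hsq.comp ((hM.comp continuous_fst).matrix_mul h0)).add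
    (continuous_finsetSum _ fun i _ => continuous_hsq.comp ?_)
  exact ((continuous_const.sub (h1 i)).matrix_mul ((hF i).comp continuous_fst)).matrix_mul h0

theorem hsq_smul_real {k l : Type} [Fintype k] [Fintype l] (c : ℝ) (A : Matrix k l ℂ) :
    hsq (c • A) = c ^ 2 * hsq A := by
  rw [← nsq_mvec, ← nsq_mvec, ← Vale.Agent.P251.G.nsq_real_smul]
  rfl

omit [DecidableEq I] in
/-- the section part of `xi` is bounded by `nsq xi` -/
theorem secSize_le {X : Type*} (M : X → Matrix (Fin p) (Fin (p + 1)) ℂ)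
    (F : I → X → Matrix (Fin 2) (Fin (p + 1)) ℂ) (c : ℝ) (x : X) (v : VV (p + 1) I) :
    c ^ 2 * secSize M F (x, basePt N N2 v) ≤
      nsq (xi N N2 (c • ((M x, fun i => F i x) : Dat (p + 1) p I)) v) := by
  have h1 : nsq (xi N N2 (c • ((M x, fun i => F i x) : Dat (p + 1) p I)) v) =
      (hsq ((8 : ℂ) • nrm v.1 (PP N v)) + hsq ((c • M x) * PP N v)) +
      ∑ i, (hsq ((8 : ℂ) • nrm (v.2 i) (QQ N2 v i)) +
        hsq ((1 - QQ N2 v i) * (c • F i x) * PP N v)) := by
    unfold xi xiVec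
    rw [Vale.Agent.P251.G.nsq_elim, Vale.Agent.P251.G.nsq_elim, nsq_mvec, nsq_mvec]
    congr 1
    unfold nsq
    rw [Fintype.sum_prod_type_right]
    refine Finset.sum_congr rfl fun i _ => ?_
    rw [Fintype.sum_sum_type, ← nsq_mvec, ← nsq_mvec]
    rfl
  have h2 : hsq ((c • M x) * PP N v) = c ^ 2 * hsq (M x * PP N v) := by
    rw [Matrix.smul_mul, hsq_smul_real]
  have h3 : ∀ i, hsq ((1 - QQ N2 v i) * (c • F i x) * PP N v) =
      c ^ 2 * hsq ((1 - QQ N2 v i) * F i x * PP N v) := by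
    intro i
    rw [Matrix.mul_smul, Matrix.smul_mul, hsq_smul_real]
  rw [h1]
  simp only [h2, h3, Finset.sum_add_distrib]
  have h4 : secSize M F (x, basePt N N2 v) = hsq (M x * PP N v) +
      ∑ i, hsq ((1 - QQ N2 v i) * F i x * PP N v) := rfl
  rw [h4, mul_add, Finset.mul_sum]
  have h5 := hsq_nonneg ((8 : ℂ) • nrm v.1 (PP N v))
  have h6 : 0 ≤ ∑ i, hsq ((8 : ℂ) • nrm (v.2 i) (QQ N2 v i)) :=
    Finset.sum_nonneg fun _ _ => hsq_nonneg _
  linarith

/-- weights on the zero set give weights on the support of `a(Λ (M, F), ·)` -/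
theorem smallOn_aMap {X : Type u} [TopologicalSpace X] [CompactSpace X] [T2Space X]
    {M : X → Matrix (Fin p) (Fin (p + 1)) ℂ} {F : I → X → Matrix (Fin 2) (Fin (p + 1)) ℂ}
    (hM : Continuous M) (hF : ∀ i, Continuous (F i)) {𝒲 : Set (Set X)} (h𝒲 : ∀ V ∈ 𝒲, IsOpen V)
    {d : ℕ} (h : U.SmallOn 𝒲 (Prod.fst : X × A.Base p I → X) (A.ZSET M F) (fun _ => d)) :
    ∃ Λ : ℝ, 0 < Λ ∧ U.SmallOn 𝒲 (Prod.fst : X × OnePoint (VV (p + 1) I) → X)
      {q | aMap N N2 n (Λ • ((M q.1, fun i => F i q.1) : Dat (p + 1) p I)) q.2 ≠ ∞}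
      (fun _ => d) := by
  rw [← secSize_eq_zero] at h
  obtain ⟨δ, hδ, hs⟩ := U.SmallOn.nbhd_of_zero h𝒲 continuous_fst (continuous_secSize hM hF)
    (secSize_nonneg M F) h
  have hΛ : (0 : ℝ) < 1 + 1 / δ := by positivity
  refine ⟨1 + 1 / δ, hΛ, ?_⟩
  have hmaps : MapsTo (toBase (X := X) (I := I) N N2)
      {q | aMap N N2 n ((1 + 1 / δ) • ((M q.1, fun i => F i q.1) : Dat (p + 1) p I)) q.2 ≠ ∞}
      {e | secSize M F e < δ} := by
    rintro ⟨x, v⟩ hq
    obtain ⟨v', rfl, -, h1⟩ := aMap_ne_infty _ v hq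
    have h2 := secSize_le (N := N) (N2 := N2) M F (1 + 1 / δ) x v'
    change secSize M F (x, basePt N N2 v') < δ
    have h3 : (1 + 1 / δ) ^ 2 * secSize M F (x, basePt N N2 v') < 1 := h2.trans_lt h1
    have h0 := secSize_nonneg M F (x, basePt N N2 v')
    by_contra hcon
    push Not at hcon
    have h4 : 1 / δ ≤ (1 + 1 / δ) ^ 2 := by
      have : 0 < 1 / δ := by positivity
      nlinarith
    have h5 : 1 / δ * δ = 1 := by field_simp
    have h6 : 1 / δ * δ ≤ (1 + 1 / δ) ^ 2 * secSize M F (x, basePt N N2 v') :=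
      mul_le_mul h4 hcon hδ.le (by positivity)
    linarith
  refine (hs.comp ((continuousOn_toBase (N := N) (N2 := N2)).mono ?_) hmaps).mono
    (fun V hV => ⟨V, hV, Subset.rfl⟩) Subset.rfl fun _ _ => le_rfl
  rintro ⟨x, v⟩ hq
  obtain ⟨v', rfl, h1, -⟩ := aMap_ne_infty _ v hq
  exact ⟨v', rfl, h1⟩

variable (N N2 n p I)

/-- **T6**, the block ZERO: `a(D₀, ·)` is homotopic to the inclusion of a fibre. -/
def ZeroOK : Prop :=
  ∃ (f : Fin n → JJ (p + 1) p I) (hf : Function.Injective f)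
    (L : VV (p + 1) I ≃L[ℝ] (Fin n → ℂ))
    (K : unitInterval → OnePoint (VV (p + 1) I) → OnePoint (Th n (JJ (p + 1) p I))),
    (Continuous fun q : unitInterval × OnePoint (VV (p + 1) I) => K q.1 q.2) ∧ (∀ τ, K τ ∞ = ∞) ∧
    (∀ v : VV (p + 1) I, K 0 (OnePoint.some v) = OnePoint.some (thFib f hf (L v))) ∧
    ∀ v : VV (p + 1) I, K 1 (OnePoint.some v) =
      aMap N N2 n (datRef (p + 1) p I) (OnePoint.some v)

variable {N N2 n p I}

/-- **half 1 of part A** -/
theorem hasCSmall_of_zset {X : Type u} [TopologicalSpace X] [CompactSpace X] [T2Space X]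
    (hOK : MapOK n (p + 1) p I N N2) (hZ : ZeroOK p I N N2 n)
    {M : X → Matrix (Fin p) (Fin (p + 1)) ℂ} {F : I → X → Matrix (Fin 2) (Fin (p + 1)) ℂ}
    (hM : Continuous M) (hF : ∀ i, Continuous (F i)) {𝒲 : Set (Set X)} (h𝒲 : ∀ V ∈ 𝒲, IsOpen V)
    {d : ℕ} (h : U.SmallOn 𝒲 (Prod.fst : X × A.Base p I → X) (A.ZSET M F) (fun _ => d)) :
    HasCSmall 𝒲 d := by
  obtain ⟨Λ, hΛ, hs⟩ := smallOn_aMap (N := N) (N2 := N2) (n := n) hM hF h𝒲 h
  obtain ⟨f, hf, L, K, hK, hKinf, hK0, hK1⟩ := hZ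
  refine hasCSmall_of_map (a := aMap N N2 n) hOK.continuous_aMap (aMap_infty n) hf L hK hKinf hK0
    hK1 (Dx := fun x => Λ • ((M x, fun i => F i x) : Dat (p + 1) p I)) ?_ hs
  have h1 : Continuous fun x => ((M x, fun i => F i x) : Dat (p + 1) p I) :=
    hM.prodMk (continuous_pi fun i => hF i)
  exact h1.const_smul Λ

end

/-- the two inputs of half 1 -/
theorem zThm_of (tube : ∀ (k : ℕ), Tube (Fin (k + 1)))
    (hOK : ∀ (p : ℕ) (I : Type) [Fintype I] [DecidableEq I], ∃ n : ℕ,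
      MapOK n (p + 1) p I (tube p) (tube 1) ∧ ZeroOK p I (tube p) (tube 1) n) : A.ZThm.{u} := by
  intro X _ _ _ p I _ _ M F hM hF 𝒲 h𝒲 d h
  obtain ⟨n, h1, h2⟩ := hOK p I
  exact hasCSmall_of_zset h1 h2 hM hF h𝒲 h

end Vale.Agent.P093.A5
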