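import Vale.Agent.P093.A5.Tgt

/-!
# P093, part A: the fibre over the base point

`E00 k` is the projection onto the first coordinate of `ℂ^(k+1)`. `piMat p (E00 p) (fun _ => E00 1)` is a
coordinate projection `coordMat S`, so the fibre over it is `Final.thFib` up to a real linear
isomorphism (`exists_thFib_base`).
-/

set_option linter.unusedSectionVars false

open Matrix
open scoped Kronecker
open Vale.Agent.P251.G

noncomputable section

namespace Vale.Agent.P093.A5

section coord

variable {J : Type} [Fintype J] [DecidableEq J] {n t : ℕ}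

/-- the projection onto the coordinates in `S` -/
def coordMat (S : J → Prop) [DecidablePred S] : Matrix J J ℂ :=
  diagonal fun a => if S a then 1 else 0

theorem coordMat_mulVec (S : J → Prop) [DecidablePred S] (v : J → ℂ) :
    coordMat S *ᵥ v = fun a => if S a then v a else 0 := by
  funext a
  rw [coordMat, mulVec_diagonal]
  split_ifs <;> simp

theorem card_of_isProj_coordMat {S : J → Prop} [DecidablePred S] (h : IsProj n (coordMat S)) :
    Fintype.card {a // S a} = n := by
  have h1 := h.trace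
  rw [coordMat, trace_diagonal, Finset.sum_boole] at h1
  rw [Fintype.card_subtype]
  exact_mod_cast h1

theorem injMat_conj {f : Fin n → J} (hf : Function.Injective f) {S : J → Prop} [DecidablePred S]
    (hS : ∀ a, S a ↔ a ∈ Set.range f) : injMat f * (1 : Matrix (Fin n) (Fin n) ℂ) * (injMat f)ᴴ = coordMat S := by
  rw [Matrix.mul_one]
  ext a b
  rw [Matrix.mul_apply, coordMat, diagonal_apply]
  simp only [conjTranspose_apply, injMat_apply, apply_ite star, star_one, star_zero]
  by_cases hab : a = b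
  · subst hab
    rw [if_pos rfl]
    by_cases hs : S a
    · obtain ⟨i, rfl⟩ := (hS _).1 hs
      rw [if_pos hs, Finset.sum_eq_single i]
      · simp
      · intro j _ hj
        rw [if_neg fun h => hj (hf h).symm, zero_mul]
      · intro h; exact absurd (Finset.mem_univ i) h
    · rw [if_neg hs]
      refine Finset.sum_eq_zero fun i _ => ?_
      rw [if_neg fun h => hs ((hS _).2 ⟨i, h.symm⟩), zero_mul]
  · rw [if_neg hab]
    refine Finset.sum_eq_zero fun i _ => ?_
    by_cases h1 : a = f i
    · have h2 : ¬ b = f i := fun h2 => hab (h1.trans h2.symm)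
      simp [h2]
    · simp [h1]

/-- the fibre over a coordinate projection, with a real linear parametrisation -/
theorem exists_thFib {V : Type*} [AddCommGroup V] [Module ℝ V] [TopologicalSpace V]
    [IsTopologicalAddGroup V] [ContinuousSMul ℝ V] [T2Space V] [FiniteDimensional ℝ V]
    {S : J → Prop} [DecidablePred S] (h : IsProj n (coordMat S))
    (D : V →ₗ[ℝ] (J → ℂ)) (hinj : Function.Injective D)
    (hD : ∀ v, coordMat S *ᵥ D v = D v) (ht : Module.finrank ℝ V = 2 * n) :
    ∃ (f : Fin n → J) (hf : Function.Injective f) (e : V ≃L[ℝ] (Fin n → ℂ)),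
      ∀ v, Final.thFib f hf (e v) = Th.mk (coordMat S) (D v) h (hD v) := by
  classical
  have hc := card_of_isProj_coordMat h
  let g : Fin n ≃ {a // S a} := (Fintype.equivFinOfCardEq hc).symm
  let f : Fin n → J := fun i => (g i).1
  have hf : Function.Injective f := fun i j hij => g.injective (Subtype.ext hij)
  have hS : ∀ a, S a ↔ a ∈ Set.range f := fun a =>
    ⟨fun ha => ⟨g.symm ⟨a, ha⟩, by simp [f]⟩, by rintro ⟨i, rfl⟩; exact (g i).2⟩
  have hsupp : ∀ v a, ¬ S a → D v a = 0 := by
    intro v a ha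
    have h1 := congrFun (hD v) a
    rw [coordMat_mulVec] at h1
    simpa [ha] using h1.symm
  let e0 : V →ₗ[ℝ] (Fin n → ℂ) :=
    { toFun := fun v i => D v (f i)
      map_add' := fun v w => by funext i; simp
      map_smul' := fun c v => by funext i; simp }
  have he0 : Function.Injective e0 := by
    intro v w hvw
    refine hinj (funext fun a => ?_)
    by_cases ha : S a
    · obtain ⟨i, rfl⟩ := (hS a).1 ha
      exact congrFun hvw i
    · rw [hsupp v a ha, hsupp w a ha]
  have hdim : Module.finrank ℝ V = Module.finrank ℝ (Fin n → ℂ) := by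
    rw [ht, Module.finrank_pi_fintype]
    simp [Complex.finrank_real_complex, mul_comm]
  let e1 : V ≃ₗ[ℝ] (Fin n → ℂ) := LinearEquiv.ofInjectiveOfFinrankEq e0 he0 hdim
  refine ⟨f, hf, e1.toContinuousLinearEquiv, fun v => ?_⟩
  have he : e1.toContinuousLinearEquiv v = fun i => D v (f i) := rfl
  refine Th.ext ?_ ?_
  · show injMat f * (1 : Matrix (Fin n) (Fin n) ℂ) * (injMat f)ᴴ = coordMat S
    exact injMat_conj hf hS
  · show injMat f *ᵥ (e1.toContinuousLinearEquiv v) = D v
    rw [he]
    funext a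
    by_cases ha : S a
    · obtain ⟨i, rfl⟩ := (hS a).1 ha
      rw [injMat_mulVec f hf]
    · rw [injMat_mulVec_of_notMem _ _ _ fun h => ha ((hS a).2 h), hsupp v a ha]

end coord

section base

variable {p : ℕ} {I : Type} [Fintype I] [DecidableEq I]

/-- the projection onto the first coordinate -/
def E00 (k : ℕ) : Matrix (Fin (k + 1)) (Fin (k + 1)) ℂ :=
  diagonal fun i => if i = 0 then 1 else 0

theorem E00_eq_single (k : ℕ) : E00 k = Matrix.single 0 0 1 := by
  ext i j
  rw [E00, diagonal_apply, Matrix.single_apply]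
  by_cases hi : i = 0
  · subst hi
    by_cases hj : 0 = j
    · subst hj; simp
    · simp [hj]
  · rw [if_neg hi, ite_self, if_neg fun h => hi h.1.symm]

theorem E00_apply (k : ℕ) (i j : Fin (k + 1)) : E00 k i j = if i = 0 ∧ j = 0 then 1 else 0 := by
  rw [E00_eq_single, Matrix.single_apply]
  refine if_congr ⟨fun h => ⟨h.1.symm, h.2.symm⟩, fun h => ⟨h.1.symm, h.2.symm⟩⟩ rfl rfl

theorem isProj_E00 (k : ℕ) : IsProj 1 (E00 k) where
  idem := by
    rw [E00, diagonal_mul_diagonal]
    congr 1
    funext i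
    split_ifs <;> simp
  herm := by
    rw [E00, diagonal_conjTranspose]
    congr 1
    funext i
    simp only [Pi.star_apply]
    split_ifs <;> simp
  trace := by
    rw [E00, trace_diagonal, Finset.sum_ite_eq']
    simp

/-- the coordinates of the fibre over the base point -/
def baseSet : JJ (p + 1) p I → Prop := fun a =>
  Sum.elim (Sum.elim (fun q : Fin (p + 1) × Fin (p + 1) => q.1 = 0 ∨ q.2 ≠ 0)
    (fun q : Fin p × Fin (p + 1) => q.2 = 0))
    (fun q : ((Fin 2 × Fin 2) ⊕ (Fin 2 × Fin (p + 1))) × I => Sum.elim (fun r : Fin 2 × Fin 2 => r.1 = 0 ∨ r.2 ≠ 0)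
      (fun r : Fin 2 × Fin (p + 1) => r.1 ≠ 0 ∧ r.2 = 0) q.1) a

instance : DecidablePred (baseSet (p := p) (I := I)) := fun a => by
  unfold baseSet
  rcases a with (a | a) | ⟨a | a, k⟩ <;> simp only [Sum.elim_inl, Sum.elim_inr] <;> infer_instance

theorem piMat_base : piMat p (E00 p) (fun _ : I => E00 1) = coordMat (baseSet (p := p) (I := I)) := by
  have e1 : ∀ k, (1 : Matrix (Fin (k + 1)) (Fin (k + 1)) ℂ) - E00 k =
      diagonal fun i => if i = 0 then 0 else 1 := by
    intro k
    rw [E00, ← diagonal_one, diagonal_sub]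
    congr 1
    funext i
    split_ifs <;> simp
  have e2 : ∀ k, (E00 k)ᵀ = E00 k := fun k => by rw [E00, diagonal_transpose]
  have e3 : ∀ k : ℕ, (1 : Matrix (Fin (k + 1) × Fin (k + 1)) (Fin (k + 1) × Fin (k + 1)) ℂ) -
      (1 - E00 k) ⊗ₖ (E00 k)ᵀ = diagonal fun q => if q.1 = 0 ∨ q.2 ≠ 0 then 1 else 0 := by
    intro k
    rw [e2, e1, E00, diagonal_kronecker_diagonal, ← diagonal_one, diagonal_sub]
    congr 1
    funext q
    by_cases h1 : q.1 = 0 <;> by_cases h2 : q.2 = 0 <;> simp [h1, h2]
  have e4 : ((1 : Matrix (Fin p) (Fin p) ℂ) ⊗ₖ (E00 p)ᵀ) =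
      diagonal fun q => if q.2 = 0 then 1 else 0 := by
    rw [e2, E00, ← diagonal_one, diagonal_kronecker_diagonal]
    congr 1
    funext q
    simp
  have e5 : ((1 - E00 1) ⊗ₖ (E00 p)ᵀ) =
      diagonal fun q => if q.1 ≠ 0 ∧ q.2 = 0 then 1 else 0 := by
    rw [e2, e1, E00, diagonal_kronecker_diagonal]
    congr 1
    funext q
    by_cases h1 : q.1 = 0 <;> by_cases h2 : q.2 = 0 <;> simp [h1, h2]
  rw [piMat, e3 p, e4, fromBlocks_diagonal]
  simp only [e3 1, e5, fromBlocks_diagonal]
  rw [blockDiagonal_diagonal, fromBlocks_diagonal, coordMat]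
  congr 1
  funext a
  rcases a with (a | a) | ⟨a | a, k⟩ <;> simp only [Sum.elim_inl, Sum.elim_inr, baseSet]

theorem isProj_piMat_sq {P : Matrix (Fin (p + 1)) (Fin (p + 1)) ℂ}
    {Q : I → Matrix (Fin 2) (Fin 2) ℂ} (hP : IsProj 1 P) (hQ : ∀ i, IsProj 1 (Q i)) :
    IsProj ((p + 1) ^ 2 + 4 * Fintype.card I) (piMat p P Q) := by
  rw [sq]; exact isProj_piMat hP hQ

theorem finrank_VV : Module.finrank ℝ (VV (p + 1) I) = 2 * ((p + 1) ^ 2 + 4 * Fintype.card I) := by
  have h1 : ∀ k : ℕ, Module.finrank ℝ (Matrix (Fin k) (Fin k) ℂ) = k * k * 2 := by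
    intro k
    rw [Module.finrank_matrix, Complex.finrank_real_complex, Fintype.card_fin]
  rw [Module.finrank_prod, h1, Module.finrank_pi_fintype]
  simp only [h1, Finset.sum_const, Finset.card_univ, smul_eq_mul]
  ring

/-- **T1, base point.** the fibre over the base point is `thFib`; `D` is the derivative of the
vector of the map at its zero. -/
theorem exists_thFib_base (D : VV (p + 1) I →ₗ[ℝ] (JJ (p + 1) p I → ℂ))
    (hinj : Function.Injective D)
    (hD : ∀ v, piMat p (E00 p) (fun _ : I => E00 1) *ᵥ D v = D v) :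
    ∃ (f : Fin ((p + 1) ^ 2 + 4 * Fintype.card I) → JJ (p + 1) p I)
      (hf : Function.Injective f)
      (e : VV (p + 1) I ≃L[ℝ] (Fin ((p + 1) ^ 2 + 4 * Fintype.card I) → ℂ)),
      ∀ v, Final.thFib f hf (e v) = Th.mk (piMat p (E00 p) (fun _ : I => E00 1)) (D v)
        (isProj_piMat_sq (isProj_E00 p) fun _ => isProj_E00 1) (hD v) := by
  have h1 : IsProj ((p + 1) ^ 2 + 4 * Fintype.card I)
      (coordMat (baseSet (p := p) (I := I))) := by
    rw [← piMat_base]
    exact isProj_piMat_sq (isProj_E00 p) fun _ => isProj_E00 1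
  have hD' : ∀ v, coordMat (baseSet (p := p) (I := I)) *ᵥ D v = D v := by
    intro v
    rw [← piMat_base]
    exact hD v
  obtain ⟨f, hf, e, he⟩ := exists_thFib h1 D hinj hD' finrank_VV
  refine ⟨f, hf, e, fun v => (he v).trans (Th.ext ?_ rfl)⟩
  rw [Th.mk_P, Th.mk_P, piMat_base]

end base

end Vale.Agent.P093.A5
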