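import Vale.Agent.P093.A5.Defs
import Vale.Agent.P093.A.Cut

/-!
# P093, part A: continuity and support of the map `a(D, v)`
-/

open Matrix OnePoint Topology Filter Set
open scoped Kronecker
open Vale.Agent.P251.G (IsProj Th nsq)

namespace Vale.Agent.P093.A5

section cont

variable {k l r : Type} [Fintype k] [Fintype l] [Fintype r]

theorem continuous_hsq : Continuous (hsq : Matrix k l ℂ → ℝ) := by
  unfold hsq
  exact continuous_finsetSum _ fun i _ => continuous_finsetSum _ fun j _ =>
    Complex.continuous_normSq.comp (continuous_id.matrix_elem i j)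

theorem hsq_nonneg (A : Matrix k l ℂ) : 0 ≤ hsq A :=
  Finset.sum_nonneg fun _ _ => Finset.sum_nonneg fun _ _ => Complex.normSq_nonneg _

theorem nsq_mvec (A : Matrix k l ℂ) : nsq (mvec A) = hsq A := by
  unfold nsq hsq mvec
  rw [Fintype.sum_prod_type]

theorem hsq_eq_zero {A : Matrix k l ℂ} : hsq A = 0 ↔ A = 0 := by
  rw [← nsq_mvec, Vale.Agent.P251.G.nsq_eq_zero]
  constructor
  · intro h
    ext i j
    exact congrFun h (i, j)
  · rintro rfl
    rfl

omit [Fintype k] in
theorem hm_conjTranspose (A : Matrix k k ℂ) : (hm A)ᴴ = hm A := by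
  unfold hm
  rw [conjTranspose_smul, conjTranspose_add, conjTranspose_conjTranspose, add_comm]
  congr 1
  simp

omit [Fintype k] in
theorem continuous_hm : Continuous (hm : Matrix k k ℂ → Matrix k k ℂ) := by
  unfold hm
  fun_prop

variable [DecidableEq k]

theorem Tube.continuous_dsq_hm (N : Tube k) : Continuous fun A => N.dsq (hm A) := by
  rw [← continuousOn_univ]
  exact N.cont_dsq.comp continuous_hm.continuousOn fun A _ => hm_conjTranspose A

theorem Tube.continuousOn_near_hm (N : Tube k) :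
    ContinuousOn (fun A => N.near (hm A)) {A | N.dsq (hm A) < 1 / 16} :=
  N.cont_near.comp continuous_hm.continuousOn fun A hA => ⟨hm_conjTranspose A, hA⟩

theorem Tube.dsq_nonneg (N : Tube k) (A : Matrix k k ℂ) : 0 ≤ N.dsq A := hsq_nonneg _

end cont

section

variable {m p : ℕ} {I : Type} [Fintype I] [DecidableEq I] (N : Tube (Fin m)) (N2 : Tube (Fin 2))

omit [Fintype I] [DecidableEq I] in
theorem isOpen_tubeSet [Finite I] : IsOpen (tubeSet m I N N2) := by
  have h : tubeSet m I N N2 = {v | N.dsq (hm v.1) < 1 / 16} ∩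
      ⋂ i, {v | N2.dsq (hm (v.2 i)) < 1 / 16} := by
    ext v
    simp [tubeSet]
  rw [h]
  refine (isOpen_lt (N.continuous_dsq_hm.comp continuous_fst) continuous_const).inter
    (isOpen_iInter_of_finite fun i => isOpen_lt (N2.continuous_dsq_hm.comp
      ((continuous_apply i).comp continuous_snd)) continuous_const)

omit [Fintype I] [DecidableEq I] in
theorem continuousOn_PP : ContinuousOn (PP (I := I) N) (tubeSet m I N N2) :=
  N.continuousOn_near_hm.comp continuous_fst.continuousOn fun _ hv => hv.1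

omit [Fintype I] [DecidableEq I] in
theorem continuousOn_QQ (i : I) :
    ContinuousOn (fun v : VV m I => QQ N2 v i) (tubeSet m I N N2) :=
  N2.continuousOn_near_hm.comp ((continuous_apply i).comp continuous_snd).continuousOn
    fun _ hv => hv.2 i

section param

variable {Z : Type*} [TopologicalSpace Z] {S : Set Z}

theorem ContinuousOn.mvec_apply {k l : Type} {A : Z → Matrix k l ℂ} (hA : ContinuousOn A S)
    (q : k × l) : ContinuousOn (fun z => mvec (A z) q) S :=
  (continuous_id.matrix_elem q.1 q.2).comp_continuousOn hA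

theorem ContinuousOn.mmul {k l r : Type} [Fintype l] {A : Z → Matrix k l ℂ}
    {B : Z → Matrix l r ℂ} (hA : ContinuousOn A S) (hB : ContinuousOn B S) :
    ContinuousOn (fun z => A z * B z) S := by
  rw [continuousOn_iff_continuous_domRestrict] at hA hB ⊢
  exact Continuous.matrix_mul hA hB

theorem ContinuousOn.nrm8 {k : Type} [Fintype k] [DecidableEq k] {A P : Z → Matrix k k ℂ}
    (hA : ContinuousOn A S) (hP : ContinuousOn P S) :
    ContinuousOn (fun z => (8 : ℂ) • nrm (A z) (P z)) S :=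
  ((hA.sub hP).sub (ContinuousOn.mmul (ContinuousOn.mmul (continuousOn_const.sub hP)
    (hA.sub hP)) hP)).const_smul (8 : ℂ)

omit [Fintype I] [DecidableEq I] in
theorem continuousOn_xiVec {M : Z → Matrix (Fin p) (Fin m) ℂ}
    {F : Z → I → Matrix (Fin 2) (Fin m) ℂ} {A P : Z → Matrix (Fin m) (Fin m) ℂ}
    {B Q : Z → I → Matrix (Fin 2) (Fin 2) ℂ} (hM : ContinuousOn M S)
    (hF : ∀ i, ContinuousOn (fun z => F z i) S) (hA : ContinuousOn A S) (hP : ContinuousOn P S)
    (hB : ∀ i, ContinuousOn (fun z => B z i) S) (hQ : ∀ i, ContinuousOn (fun z => Q z i) S) :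
    ContinuousOn (fun z => xiVec (M z, F z) (A z, B z) (P z) (Q z)) S := by
  rw [continuousOn_pi]
  rintro ((q | q) | ⟨q | q, i⟩)
  · exact ContinuousOn.mvec_apply (ContinuousOn.nrm8 hA hP) q
  · exact ContinuousOn.mvec_apply (ContinuousOn.mmul hM hP) q
  · exact ContinuousOn.mvec_apply (ContinuousOn.nrm8 (hB i) (hQ i)) q
  · exact ContinuousOn.mvec_apply (ContinuousOn.mmul (ContinuousOn.mmul
      (continuousOn_const.sub (hQ i)) (hF i)) hP) q

theorem ContinuousOn.kron {k l : Type} {A : Z → Matrix k k ℂ}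
    {B : Z → Matrix l l ℂ} (hA : ContinuousOn A S) (hB : ContinuousOn B S) :
    ContinuousOn (fun z => A z ⊗ₖ (B z)ᵀ) S := by
  rw [continuousOn_iff_continuous_domRestrict] at hA hB ⊢
  refine continuous_matrix fun i j => ?_
  exact (hA.matrix_elem i.1 j.1).mul (hB.matrix_elem j.2 i.2)

omit [Fintype I] in
theorem continuousOn_piMat {P : Z → Matrix (Fin m) (Fin m) ℂ}
    {Q : Z → I → Matrix (Fin 2) (Fin 2) ℂ} (hP : ContinuousOn P S)
    (hQ : ∀ i, ContinuousOn (fun z => Q z i) S) :
    ContinuousOn (fun z => piMat p (P z) (Q z)) S := by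
  have h1 : ContinuousOn (fun z => 1 - (1 - P z) ⊗ₖ (P z)ᵀ) S :=
    continuousOn_const.sub (ContinuousOn.kron (continuousOn_const.sub hP) hP)
  have h2 : ContinuousOn (fun z => (1 : Matrix (Fin p) (Fin p) ℂ) ⊗ₖ (P z)ᵀ) S :=
    ContinuousOn.kron continuousOn_const hP
  have h3 : ∀ i, ContinuousOn (fun z => 1 - (1 - Q z i) ⊗ₖ (Q z i)ᵀ) S := fun i =>
    continuousOn_const.sub (ContinuousOn.kron (continuousOn_const.sub (hQ i)) (hQ i))
  have h4 : ∀ i, ContinuousOn (fun z => (1 - Q z i) ⊗ₖ (P z)ᵀ) S := fun i =>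
    ContinuousOn.kron (continuousOn_const.sub (hQ i)) hP
  rw [continuousOn_iff_continuous_domRestrict] at h1 h2 ⊢
  have h3' : ∀ i, Continuous (S.domRestrict fun z => 1 - (1 - Q z i) ⊗ₖ (Q z i)ᵀ) := fun i =>
    continuousOn_iff_continuous_domRestrict.1 (h3 i)
  have h4' : ∀ i, Continuous (S.domRestrict fun z => (1 - Q z i) ⊗ₖ (P z)ᵀ) := fun i =>
    continuousOn_iff_continuous_domRestrict.1 (h4 i)
  exact Continuous.matrix_fromBlocks (Continuous.matrix_fromBlocks h1 continuous_const
    continuous_const h2) continuous_const continuous_const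
    (Continuous.matrix_blockDiagonal (continuous_pi fun i =>
      Continuous.matrix_fromBlocks (h3' i) continuous_const continuous_const (h4' i)))

end param

omit [Fintype I] [DecidableEq I] in
theorem continuousOn_xi :
    ContinuousOn (fun q : Dat m p I × VV m I => xi N N2 q.1 q.2) (univ ×ˢ tubeSet m I N N2) :=
  continuousOn_xiVec continuous_fst.fst.continuousOn
    (fun i => ((continuous_apply i).comp continuous_fst.snd).continuousOn)
    continuous_snd.fst.continuousOn
    ((continuousOn_PP N N2).comp continuousOn_snd fun _ hq => hq.2)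
    (fun i => ((continuous_apply i).comp continuous_snd.snd).continuousOn)
    (fun i => (continuousOn_QQ N N2 i).comp continuousOn_snd fun _ hq => hq.2)

/-- The conditions on `aMap` proved elsewhere: `piMat` is a projection of rank `n`, it fixes `xi`, and
the points with `nsq xi < 1` lie in one compact subset of the tube. -/
structure MapOK (n m p : ℕ) (I : Type) [Fintype I] [DecidableEq I] (N : Tube (Fin m))
    (N2 : Tube (Fin 2)) : Prop where
  proj : ∀ (P : Matrix (Fin m) (Fin m) ℂ) (Q : I → Matrix (Fin 2) (Fin 2) ℂ), IsProj 1 P →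
    (∀ i, IsProj 1 (Q i)) → IsProj n (piMat p P Q)
  fix : ∀ (D : Dat m p I) (v : VV m I) (P : Matrix (Fin m) (Fin m) ℂ)
    (Q : I → Matrix (Fin 2) (Fin 2) ℂ), IsProj 1 P → (∀ i, IsProj 1 (Q i)) →
    piMat p P Q *ᵥ xiVec D v P Q = xiVec D v P Q
  cpt : ∃ K : Set (VV m I), IsCompact K ∧ K ⊆ tubeSet m I N N2 ∧
    ∀ (D : Dat m p I), ∀ v ∈ tubeSet m I N N2, nsq (xi N N2 D v) < 1 → v ∈ K

variable {N N2} {n : ℕ}

theorem MapOK.proj' (h : MapOK n m p I N N2) (v : VV m I) :
    IsProj n (piMat p (PP N v) (QQ N2 v)) :=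
  h.proj _ _ (N.isProj _) fun _ => N2.isProj _

theorem MapOK.fix' (h : MapOK n m p I N N2) (D : Dat m p I) (v : VV m I) :
    piMat p (PP N v) (QQ N2 v) *ᵥ xi N N2 D v = xi N N2 D v :=
  h.fix _ _ _ _ (N.isProj _) fun _ => N2.isProj _

/-- the value of `aMap` -/
noncomputable def MapOK.val (h : MapOK n m p I N N2) (D : Dat m p I) (v : VV m I) :
    Th n (JJ m p I) :=
  Th.mk (piMat p (PP N v) (QQ N2 v)) ((1 - nsq (xi N N2 D v))⁻¹ • xi N N2 D v) (h.proj' v)
    (by rw [mulVec_smul, h.fix' D v])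

@[simp] theorem aMap_infty (n : ℕ) (D : Dat m p I) : aMap N N2 n D ∞ = ∞ := rfl

theorem MapOK.aMap_some (h : MapOK n m p I N N2) (D : Dat m p I) (v : VV m I)
    (hv : v ∈ tubeSet m I N N2) (h1 : nsq (xi N N2 D v) < 1) :
    aMap N N2 n D (OnePoint.some v) = OnePoint.some (h.val D v) :=
  dif_pos ⟨hv, h1, h.proj' v, h.fix' D v⟩

theorem aMap_eq_infty (D : Dat m p I) (v : VV m I)
    (hv : ¬ (v ∈ tubeSet m I N N2 ∧ nsq (xi N N2 D v) < 1)) :
    aMap N N2 n D (OnePoint.some v) = ∞ :=
  dif_neg fun h => hv ⟨h.1, h.2.1⟩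

/-- the support of `aMap` -/
theorem aMap_ne_infty (D : Dat m p I) (v : OnePoint (VV m I)) (hv : aMap N N2 n D v ≠ ∞) :
    ∃ v' : VV m I, v = OnePoint.some v' ∧ v' ∈ tubeSet m I N N2 ∧ nsq (xi N N2 D v') < 1 := by
  induction v using OnePoint.rec with
  | infty => exact absurd rfl hv
  | coe v =>
    refine ⟨v, rfl, ?_⟩
    by_contra hcon
    exact hv (aMap_eq_infty D v hcon)

theorem MapOK.continuousOn_val (h : MapOK n m p I N N2) :
    ContinuousOn (fun q : Dat m p I × VV m I => h.val q.1 q.2)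
      {q | q.2 ∈ tubeSet m I N N2 ∧ nsq (xi N N2 q.1 q.2) < 1} := by
  have hsub : {q : Dat m p I × VV m I | q.2 ∈ tubeSet m I N N2 ∧ nsq (xi N N2 q.1 q.2) < 1} ⊆
      univ ×ˢ tubeSet m I N N2 := fun q hq => ⟨mem_univ _, hq.1⟩
  have hx := (continuousOn_xi (p := p) (I := I) N N2).mono hsub
  have hpi : ContinuousOn (fun q : Dat m p I × VV m I => piMat p (PP N q.2) (QQ N2 q.2))
      {q | q.2 ∈ tubeSet m I N N2 ∧ nsq (xi N N2 q.1 q.2) < 1} :=
    continuousOn_piMat ((continuousOn_PP N N2).comp continuousOn_snd fun q hq => hq.1)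
      fun i => (continuousOn_QQ N N2 i).comp continuousOn_snd fun q hq => hq.1
  rw [continuousOn_iff_continuous_domRestrict] at hpi hx ⊢
  refine Continuous.subtype_mk (Continuous.prodMk hpi ?_) _
  refine Continuous.smul (Continuous.inv₀ (continuous_const.sub
    (Vale.Agent.P251.G.continuous_nsq.comp hx)) ?_) hx
  rintro ⟨q, hq⟩
  have := hq.2
  change 1 - nsq (xi N N2 q.1 q.2) ≠ 0
  linarith

/-- **T4**: continuity of `a`. -/
theorem MapOK.continuous_aMap (h : MapOK n m p I N N2) :
    Continuous fun q : Dat m p I × OnePoint (VV m I) => aMap N N2 n q.1 q.2 := by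
  obtain ⟨K, hK, hKt, hKx⟩ := h.cpt
  set e : Dat m p I × VV m I → Dat m p I × OnePoint (VV m I) := fun q => (q.1, OnePoint.some q.2)
    with he
  have heo : IsOpenEmbedding e := by
    exact IsOpenEmbedding.id.prodMap OnePoint.isOpenEmbedding_coe
  set D0 : Set (Dat m p I × VV m I) := {q | q.2 ∈ tubeSet m I N N2 ∧ nsq (xi N N2 q.1 q.2) < 1}
    with hD0
  have hopen0 : IsOpen D0 := by
    have h1 := (continuousOn_xi (p := p) (I := I) N N2)
    have h2 : IsOpen ((univ : Set (Dat m p I)) ×ˢ tubeSet m I N N2) :=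
      isOpen_univ.prod (isOpen_tubeSet N N2)
    have h3 := (Vale.Agent.P251.G.continuous_nsq.comp_continuousOn h1).isOpen_inter_preimage h2
      (isOpen_Iio (a := (1 : ℝ)))
    convert h3 using 1
    ext q
    simp [hD0]
  have hD1 : IsOpen (e '' D0) := heo.isOpenMap _ hopen0
  have : Nonempty (VV m I) := ⟨0⟩
  -- the section
  let s : Dat m p I × OnePoint (VV m I) → Th n (JJ m p I) := fun q => q.2.elim (h.val q.1 0)
    fun v => h.val q.1 v
  refine A.continuous_onePoint hD1 (s := s) ?_ ?_ ?_ (N := fun x => nsq x.v)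
    (A.bounded_of_continuous (Vale.Agent.P251.G.continuous_nsq.comp Th.continuous_v)) ?_
  · rintro _ ⟨q, hq, rfl⟩
    refine ContinuousAt.continuousWithinAt ?_
    rw [← heo.continuousAt_iff]
    exact h.continuousOn_val.continuousAt (hopen0.mem_nhds hq)
  · rintro _ ⟨q, hq, rfl⟩
    exact h.aMap_some _ _ hq.1 hq.2
  · rintro ⟨D, v⟩ hv
    by_contra hne
    obtain ⟨v', rfl, h1, h2⟩ := aMap_ne_infty D v hne
    exact hv ⟨(D, v'), ⟨h1, h2⟩, rfl⟩
  · rintro ⟨D, v⟩ hv R
    induction v using OnePoint.rec with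
    | infty =>
      have h1 : ∀ᶠ z in 𝓝 (D, (∞ : OnePoint (VV m I))), z ∉ e '' D0 := by
        have h2 : IsClosed ((univ : Set (Dat m p I)) ×ˢ ((OnePoint.some : VV m I → _) '' K)) :=
          isClosed_univ.prod ((hK.image OnePoint.continuous_coe).isClosed)
        have h3 : (D, (∞ : OnePoint (VV m I))) ∉
            (univ : Set (Dat m p I)) ×ˢ ((OnePoint.some : VV m I → _) '' K) := by
          rintro ⟨-, v, -, hv⟩
          exact OnePoint.coe_ne_infty _ hv
        filter_upwards [h2.isOpen_compl.mem_nhds h3] with z hz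
        rintro ⟨q, hq, rfl⟩
        exact hz ⟨mem_univ _, q.2, hKx q.1 q.2 hq.1 hq.2, rfl⟩
      filter_upwards [h1] with z hz hz'
      exact absurd hz' hz
    | coe v =>
      change ∀ᶠ z in 𝓝 (e (D, v)), _
      rw [← heo.map_nhds_eq, eventually_map]
      by_cases hvK : v ∈ K
      · have hvt := hKt hvK
        have h1 : (1 : ℝ) ≤ nsq (xi N N2 D v) := by
          by_contra hlt
          exact hv ⟨(D, v), ⟨hvt, not_le.1 hlt⟩, rfl⟩
        have h2 : ContinuousAt (fun q : Dat m p I × VV m I => nsq (xi N N2 q.1 q.2)) (D, v) :=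
          (Vale.Agent.P251.G.continuous_nsq.comp_continuousOn
            (continuousOn_xi (p := p) (I := I) N N2)).continuousAt
            ((isOpen_univ.prod (isOpen_tubeSet N N2)).mem_nhds ⟨mem_univ _, hvt⟩)
        have hε : 1 - 1 / (2 + |R|) < nsq (xi N N2 D v) := by
          have : 0 < 1 / (2 + |R|) := by positivity
          linarith
        filter_upwards [h2.eventually (lt_mem_nhds hε)] with q hq hq'
        obtain ⟨q', hq'0, hqq⟩ := hq'
        obtain rfl := heo.injective hqq
        change R < nsq ((1 - nsq (xi N N2 q'.1 q'.2))⁻¹ • xi N N2 q'.1 q'.2)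
        rw [Vale.Agent.P251.G.nsq_real_smul]
        have ht1 : nsq (xi N N2 q'.1 q'.2) < 1 := hq'0.2
        set t := nsq (xi N N2 q'.1 q'.2)
        have h3 : 0 < 1 - t := by linarith
        have h4 : 2 + |R| < (1 - t)⁻¹ := by
          rw [lt_inv_comm₀ (by positivity) h3, ← one_div]
          linarith
        have h5 : 1 / (2 + |R|) ≤ 1 / 2 := by
          apply one_div_le_one_div_of_le <;> [norm_num; linarith [abs_nonneg R]]
        have h6 : 1 / 2 < t := by linarith
        have h7 := le_abs_self R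
        have h8 := abs_nonneg R
        nlinarith
      · filter_upwards [(hK.isClosed.preimage continuous_snd).isOpen_compl.mem_nhds
          (show (D, v) ∈ (Prod.snd ⁻¹' K)ᶜ from hvK)] with q hq hq'
        obtain ⟨q', hq'0, hqq⟩ := hq'
        obtain rfl := heo.injective hqq
        exact absurd (hKx q'.1 q'.2 hq'0.1 hq'0.2) hq

end

end Vale.Agent.P093.A5
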