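import Vale.Agent.P093.A5.Tgt
import Vale.Agent.P093.A5.Map

/-!
# P093, part A: norm estimates

* `hsq_sub_le_two_nrm` : `‖A - P‖² ≤ 2 ‖nrm A P‖²` for `P` the projection nearest to the hermitian part;
* `dsq_hm_le` : `dsq (hm A) ≤ ‖A - P‖²`;
* `nsq_xiVec` : the norm of the vector;
* `K0` : a compact subset of the open tube which contains all `v` with `nsq (xi D v) < 1`.
-/

set_option linter.unusedSectionVars false

open Matrix Topology
open Vale.Agent.P251.G

noncomputable section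

namespace Vale.Agent.P093.A5

section hsq

variable {k l : Type} [Fintype k] [Fintype l]

theorem normSq_le_hsq (A : Matrix k l ℂ) (i : k) (j : l) : Complex.normSq (A i j) ≤ hsq A := by
  have h1 : Complex.normSq (A i j) ≤ ∑ j, Complex.normSq (A i j) :=
    Finset.single_le_sum (f := fun j => Complex.normSq (A i j))
      (fun _ _ => Complex.normSq_nonneg _) (Finset.mem_univ j)
  refine h1.trans (Finset.single_le_sum (f := fun i => ∑ j, Complex.normSq (A i j))
    (fun _ _ => Finset.sum_nonneg fun _ _ => Complex.normSq_nonneg _) (Finset.mem_univ i))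

theorem hsq_conjTranspose (A : Matrix k l ℂ) : hsq Aᴴ = hsq A := by
  unfold hsq
  rw [Finset.sum_comm]
  refine Finset.sum_congr rfl fun i _ => Finset.sum_congr rfl fun j _ => ?_
  rw [conjTranspose_apply, Complex.star_def, Complex.normSq_conj]

theorem hsq_neg (A : Matrix k l ℂ) : hsq (-A) = hsq A := by
  unfold hsq
  refine Finset.sum_congr rfl fun i _ => Finset.sum_congr rfl fun j _ => ?_
  rw [Matrix.neg_apply, Complex.normSq_neg]

theorem hsq_smul (c : ℂ) (A : Matrix k l ℂ) : hsq (c • A) = Complex.normSq c * hsq A := by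
  unfold hsq
  rw [Finset.mul_sum]
  refine Finset.sum_congr rfl fun i _ => ?_
  rw [Finset.mul_sum]
  refine Finset.sum_congr rfl fun j _ => ?_
  rw [Matrix.smul_apply, smul_eq_mul, map_mul]

theorem coe_hsq (A : Matrix k l ℂ) : ((hsq A : ℝ) : ℂ) = (Aᴴ * A).trace := by
  unfold hsq
  rw [Finset.sum_comm, Matrix.trace, Complex.ofReal_sum]
  refine Finset.sum_congr rfl fun j _ => ?_
  rw [diag_apply, Matrix.mul_apply, Complex.ofReal_sum]
  refine Finset.sum_congr rfl fun i _ => ?_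
  rw [conjTranspose_apply, Complex.star_def, mul_comm, Complex.mul_conj]

theorem hsq_half_add_le (A B : Matrix k l ℂ) :
    hsq ((1 / 2 : ℂ) • (A + B)) ≤ (hsq A + hsq B) / 2 := by
  unfold hsq
  rw [← Finset.sum_add_distrib, Finset.sum_div]
  refine Finset.sum_le_sum fun i _ => ?_
  rw [← Finset.sum_add_distrib, Finset.sum_div]
  refine Finset.sum_le_sum fun j _ => ?_
  rw [Matrix.smul_apply, Matrix.add_apply, smul_eq_mul]
  generalize A i j = a
  generalize B i j = b
  rw [map_mul]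
  have h1 : Complex.normSq (1 / 2 : ℂ) = 1 / 4 := by
    norm_num [Complex.normSq_apply]
  rw [h1, Complex.normSq_apply, Complex.normSq_apply, Complex.normSq_apply, Complex.add_re,
    Complex.add_im]
  nlinarith [sq_nonneg (a.re - b.re), sq_nonneg (a.im - b.im)]

theorem hsq_add_le (A B : Matrix k l ℂ) : hsq (A + B) ≤ 2 * (hsq A + hsq B) := by
  have h1 := hsq_half_add_le A B
  have h2 : Complex.normSq (1 / 2 : ℂ) = 1 / 4 := by
    norm_num [Complex.normSq_apply]
  rw [hsq_smul, h2] at h1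
  linarith

/-- Pythagoras for a projection acting from the left -/
theorem hsq_left [DecidableEq k] {P : Matrix k k ℂ} (hP : P * P = P) (hP' : Pᴴ = P)
    (Z : Matrix k l ℂ) : hsq (P * Z) + hsq ((1 - P) * Z) = hsq Z := by
  have h1 : ((hsq (P * Z) + hsq ((1 - P) * Z) : ℝ) : ℂ) = ((hsq Z : ℝ) : ℂ) := by
    have h2 : (1 - P) * (1 - P) = 1 - P := by
      rw [sub_mul, one_mul, mul_sub, mul_one, hP, sub_self, sub_zero]
    have h3 : (1 - P)ᴴ = 1 - P := by rw [conjTranspose_sub, conjTranspose_one, hP']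
    have h4 : (P * Z)ᴴ * (P * Z) = Zᴴ * P * Z := by
      rw [conjTranspose_mul, hP', Matrix.mul_assoc, ← Matrix.mul_assoc P, hP, Matrix.mul_assoc]
    have h5 : ((1 - P) * Z)ᴴ * ((1 - P) * Z) = Zᴴ * (1 - P) * Z := by
      rw [conjTranspose_mul, h3, Matrix.mul_assoc, ← Matrix.mul_assoc (1 - P), h2,
        Matrix.mul_assoc]
    rw [Complex.ofReal_add, coe_hsq, coe_hsq, coe_hsq, h4, h5, ← trace_add, ← Matrix.add_mul,
      ← Matrix.mul_add, add_sub_cancel, Matrix.mul_one]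
  exact_mod_cast h1

/-- Pythagoras for a projection acting from the right -/
theorem hsq_right [DecidableEq l] {P : Matrix l l ℂ} (hP : P * P = P) (hP' : Pᴴ = P)
    (Z : Matrix k l ℂ) : hsq (Z * P) + hsq (Z * (1 - P)) = hsq Z := by
  have h1 := hsq_left hP hP' Zᴴ
  rw [← hsq_conjTranspose (P * Zᴴ), ← hsq_conjTranspose ((1 - P) * Zᴴ), conjTranspose_mul,
    conjTranspose_mul, conjTranspose_conjTranspose, conjTranspose_sub, conjTranspose_one, hP',
    hsq_conjTranspose] at h1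
  exact h1

theorem hsq_proj_mul_le [DecidableEq k] {P : Matrix k k ℂ} (hP : P * P = P) (hP' : Pᴴ = P)
    (Z : Matrix k l ℂ) : hsq (P * Z) ≤ hsq Z := by
  have h1 := hsq_left hP hP' Z
  have h2 := hsq_nonneg ((1 - P) * Z)
  linarith

theorem hsq_mul_proj_le [DecidableEq l] {P : Matrix l l ℂ} (hP : P * P = P) (hP' : Pᴴ = P)
    (Z : Matrix k l ℂ) : hsq (Z * P) ≤ hsq Z := by
  have h1 := hsq_right hP hP' Z
  have h2 := hsq_nonneg (Z * (1 - P))
  linarith

end hsq

section tube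

variable {k : Type} [Fintype k] [DecidableEq k]

/-- the removed corner is not larger than the rest -/
theorem hsq_sub_le_two_nrm_of_comm {A P : Matrix k k ℂ} (hP : P * P = P) (hP' : Pᴴ = P)
    (hc : hm A * P = P * hm A) : hsq (A - P) ≤ 2 * hsq (nrm A P) := by
  have q1 : (1 - P) * (1 - P) = 1 - P := by
    rw [sub_mul, one_mul, mul_sub, mul_one, hP, sub_self, sub_zero]
  have q2 : (1 - P)ᴴ = 1 - P := by rw [conjTranspose_sub, conjTranspose_one, hP']
  have q3 : (1 - P) * P = 0 := by rw [sub_mul, one_mul, hP, sub_self]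
  have q4 : P * (1 - P) = 0 := by rw [mul_sub, mul_one, hP, sub_self]
  obtain ⟨X, hX⟩ : ∃ X, X = A - P := ⟨_, rfl⟩
  obtain ⟨C, hC⟩ : ∃ C, C = (1 - P) * X * P := ⟨_, rfl⟩
  obtain ⟨B, hB⟩ : ∃ B, B = X - C := ⟨_, rfl⟩
  have hn : nrm A P = B := by rw [nrm, hB, hC, hX]
  rw [hn, ← hX]
  -- the pieces of `X` and of `B`
  have hPC : P * C = 0 := by
    rw [hC, ← Matrix.mul_assoc, ← Matrix.mul_assoc, q4, Matrix.zero_mul, Matrix.zero_mul]
  have h1 : P * B = P * X := by rw [hB, mul_sub, hPC, sub_zero]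
  have h2 : (1 - P) * B = ((1 - P) * X) * (1 - P) := by
    have h3 : (1 - P) * C = C := by
      rw [hC, ← Matrix.mul_assoc, ← Matrix.mul_assoc, q1]
    rw [hB, mul_sub (1 - P), h3, hC, mul_sub ((1 - P) * X), mul_one]
  have e1 := hsq_left hP hP' X
  have e2 := hsq_right hP hP' ((1 - P) * X)
  have e3 := hsq_left hP hP' B
  rw [h1, h2] at e3
  rw [← hC] at e2
  -- the corner is minus the adjoint of the opposite corner
  have h4 : Xᴴ = (2 : ℂ) • (hm A - P) - X := by
    rw [hX, conjTranspose_sub, hP', hm, smul_sub, smul_smul]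
    norm_num
    rw [two_smul]
    abel
  have h5 : (1 - P) * hm A * P = 0 := by
    rw [Matrix.mul_assoc, hc, ← Matrix.mul_assoc, q3, Matrix.zero_mul]
  have h6 : (P * X * (1 - P))ᴴ = -C := by
    rw [conjTranspose_mul, conjTranspose_mul, q2, hP', h4, hC, ← Matrix.mul_assoc, mul_sub, sub_mul,
      Matrix.mul_smul, Matrix.smul_mul, mul_sub (1 - P) (hm A) P, sub_mul, h5, q3,
      Matrix.zero_mul, sub_zero, smul_zero, zero_sub]
  have h7 : hsq C = hsq (P * X * (1 - P)) := by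
    rw [← hsq_neg, ← h6, hsq_conjTranspose]
  have h8 : hsq (P * X * (1 - P)) ≤ hsq (P * X) := by
    have := hsq_mul_proj_le q1 q2 (P * X)
    exact this
  have h9 := hsq_nonneg (((1 - P) * X) * (1 - P))
  linarith

/-- **T3.** -/
theorem hsq_sub_le_two_nrm (N : Tube k) (A : Matrix k k ℂ) :
    hsq (A - N.near (hm A)) ≤ 2 * hsq (nrm A (N.near (hm A))) :=
  hsq_sub_le_two_nrm_of_comm (N.isProj _).idem (N.isProj _).herm (N.comm _ (hm_conjTranspose A))

/-- **T3.** -/
theorem dsq_hm_le (N : Tube k) (A : Matrix k k ℂ) : N.dsq (hm A) ≤ hsq (A - N.near (hm A)) := by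
  obtain ⟨P, hP⟩ : ∃ P, P = N.near (hm A) := ⟨_, rfl⟩
  have h0 : Pᴴ = P := by rw [hP]; exact (N.isProj _).herm
  rw [Tube.dsq, ← hP]
  have h1 : hm A - P = (1 / 2 : ℂ) • ((A - P) + (A - P)ᴴ) := by
    rw [conjTranspose_sub, h0, hm]
    have h2 : A - P + (Aᴴ - P) = (A + Aᴴ) - (2 : ℂ) • P := by rw [two_smul]; abel
    rw [h2, smul_sub, smul_smul]
    norm_num
  rw [h1]
  refine (hsq_half_add_le _ _).trans ?_
  rw [hsq_conjTranspose]
  linarith

/-- the compact set of one block -/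
def K1 (N : Tube k) : Set (Matrix k k ℂ) := {A | hsq (A - N.near (hm A)) ≤ 1 / 32}

theorem hsq_isProj {P : Matrix k k ℂ} (h : IsProj 1 P) : hsq P = 1 := by
  have h1 := coe_hsq P
  rw [h.herm, h.idem, h.trace] at h1
  exact_mod_cast h1

theorem dsq_le_of_mem_K1 {N : Tube k} {A : Matrix k k ℂ} (h : A ∈ K1 N) :
    N.dsq (hm A) ≤ 1 / 32 := (dsq_hm_le N A).trans h

theorem isCompact_hsq_le (r : ℝ) : IsCompact {A : Matrix k k ℂ | hsq A ≤ r} := by
  have h1 : IsCompact {A : k → k → ℂ |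
      ∀ i, A i ∈ {v : k → ℂ | ∀ j, v j ∈ Metric.closedBall 0 (Real.sqrt r)}} :=
    isCompact_pi_infinite fun i => isCompact_pi_infinite fun j => isCompact_closedBall (0 : ℂ) _
  refine IsCompact.of_isClosed_subset h1 (isClosed_le continuous_hsq continuous_const) ?_
  intro A hA i j
  rw [mem_closedBall_zero_iff]
  refine Real.le_sqrt_of_sq_le ?_
  rw [← Complex.normSq_eq_norm_sq]
  exact (normSq_le_hsq A i j).trans hA

theorem isClosed_K1 (N : Tube k) : IsClosed (K1 N) := by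
  have h1 : IsClosed {A : Matrix k k ℂ | N.dsq (hm A) ≤ 1 / 32} :=
    isClosed_le N.continuous_dsq_hm continuous_const
  have h2 : K1 N = {A : Matrix k k ℂ | N.dsq (hm A) ≤ 1 / 32} ∩
      (fun A => hsq (A - N.near (hm A))) ⁻¹' Set.Iic (1 / 32) := by
    ext A
    exact ⟨fun h => ⟨dsq_le_of_mem_K1 h, h⟩, fun h => h.2⟩
  rw [h2]
  refine ContinuousOn.preimage_isClosed_of_isClosed ?_ h1 isClosed_Iic
  refine continuous_hsq.comp_continuousOn (continuousOn_id.sub ?_)
  refine N.continuousOn_near_hm.mono fun A hA => ?_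
  have h3 : N.dsq (hm A) ≤ 1 / 32 := hA
  show N.dsq (hm A) < 1 / 16
  linarith

theorem isCompact_K1 (N : Tube k) : IsCompact (K1 N) := by
  refine (isCompact_hsq_le 4).of_isClosed_subset (isClosed_K1 N) ?_
  intro A hA
  have h1 := hsq_add_le (A - N.near (hm A)) (N.near (hm A))
  rw [sub_add_cancel, hsq_isProj (N.isProj _)] at h1
  have h2 : hsq (A - N.near (hm A)) ≤ 1 / 32 := hA
  show hsq A ≤ 4
  linarith

theorem mem_K1_of_nrm {N : Tube k} {A : Matrix k k ℂ}
    (h : 64 * hsq (nrm A (N.near (hm A))) ≤ 1) : A ∈ K1 N := by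
  have h1 := hsq_sub_le_two_nrm N A
  show hsq (A - N.near (hm A)) ≤ 1 / 32
  linarith

end tube

section target

variable {m p : ℕ} {I : Type} [Fintype I] [DecidableEq I]

/-- the norm of the vector -/
theorem nsq_xiVec (D : Dat m p I) (v : VV m I) (P : Matrix (Fin m) (Fin m) ℂ)
    (Q : I → Matrix (Fin 2) (Fin 2) ℂ) : nsq (xiVec D v P Q) =
      64 * hsq (nrm v.1 P) + hsq (D.1 * P) +
        ∑ i, (64 * hsq (nrm (v.2 i) (Q i)) + hsq ((1 - Q i) * D.2 i * P)) := by
  have h1 : nsq (xiVec D v P Q) =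
      nsq (mvec ((8 : ℂ) • nrm v.1 P)) + nsq (mvec (D.1 * P)) +
        ∑ i, (nsq (mvec ((8 : ℂ) • nrm (v.2 i) (Q i))) + nsq (mvec ((1 - Q i) * D.2 i * P))) := by
    unfold nsq xiVec
    rw [Fintype.sum_sum_type, Fintype.sum_sum_type]
    congr 1
    refine (Fintype.sum_prod_type_right _).trans (Finset.sum_congr rfl fun i _ => ?_)
    rw [Fintype.sum_sum_type]
    rfl
  rw [h1]
  simp only [nsq_mvec, hsq_smul]
  norm_num [Complex.normSq_ofNat]

variable (N : Tube (Fin m)) (N2 : Tube (Fin 2))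

/-- the compact set -/
def K0 (m : ℕ) (I : Type) (N : Tube (Fin m)) (N2 : Tube (Fin 2)) : Set (VV m I) :=
  {v | v.1 ∈ K1 N ∧ ∀ i, v.2 i ∈ K1 N2}

theorem isCompact_K0 : IsCompact (K0 m I N N2) := by
  have h1 : K0 m I N N2 = K1 N ×ˢ Set.univ.pi fun _ => K1 N2 := by
    ext v
    simp [K0]
  rw [h1]
  exact (isCompact_K1 N).prod (isCompact_univ_pi fun _ => isCompact_K1 N2)

theorem K0_subset : K0 m I N N2 ⊆ tubeSet m I N N2 := fun _ hv =>
  ⟨(dsq_le_of_mem_K1 hv.1).trans_lt (by norm_num),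
    fun i => (dsq_le_of_mem_K1 (hv.2 i)).trans_lt (by norm_num)⟩

variable {N N2}

/-- **T3.** where the vector has norm at most one the point is in the compact set -/
theorem mem_K0 {D : Dat m p I} {v : VV m I} (h : nsq (xi N N2 D v) ≤ 1) : v ∈ K0 m I N N2 := by
  rw [xi, nsq_xiVec] at h
  have h0 : ∀ i, 0 ≤ 64 * hsq (nrm (v.2 i) (QQ N2 v i)) +
      hsq ((1 - QQ N2 v i) * D.2 i * PP N v) := fun i => by
    have := hsq_nonneg (nrm (v.2 i) (QQ N2 v i))
    have := hsq_nonneg ((1 - QQ N2 v i) * D.2 i * PP N v)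
    linarith
  have h1 := Finset.sum_nonneg fun i (_ : i ∈ Finset.univ) => h0 i
  have h2 := hsq_nonneg (D.1 * PP N v)
  have h3 := hsq_nonneg (nrm v.1 (PP N v))
  refine ⟨mem_K1_of_nrm (N := N) ?_, fun i => mem_K1_of_nrm (N := N2) ?_⟩
  · show 64 * hsq (nrm v.1 (PP N v)) ≤ 1
    linarith
  · have h4 := Finset.single_le_sum (fun i (_ : i ∈ Finset.univ) => h0 i) (Finset.mem_univ i)
    have h5 := hsq_nonneg ((1 - QQ N2 v i) * D.2 i * PP N v)
    show 64 * hsq (nrm (v.2 i) (QQ N2 v i)) ≤ 1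
    linarith

/-- the sections are bounded by the norm of the vector -/
theorem hsq_M_le (D : Dat m p I) (v : VV m I) : hsq (D.1 * PP N v) ≤ nsq (xi N N2 D v) := by
  rw [xi, nsq_xiVec]
  have h1 := Finset.sum_nonneg fun i (_ : i ∈ Finset.univ) =>
    add_nonneg (mul_nonneg (by norm_num : (0 : ℝ) ≤ 64) (hsq_nonneg (nrm (v.2 i) (QQ N2 v i))))
      (hsq_nonneg ((1 - QQ N2 v i) * D.2 i * PP N v))
  have h3 := hsq_nonneg (nrm v.1 (PP N v))
  linarith

theorem hsq_F_le (D : Dat m p I) (v : VV m I) (i : I) :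
    hsq ((1 - QQ N2 v i) * D.2 i * PP N v) ≤ nsq (xi N N2 D v) := by
  rw [xi, nsq_xiVec]
  have h4 := Finset.single_le_sum (fun i (_ : i ∈ Finset.univ) =>
    add_nonneg (mul_nonneg (by norm_num : (0 : ℝ) ≤ 64) (hsq_nonneg (nrm (v.2 i) (QQ N2 v i))))
      (hsq_nonneg ((1 - QQ N2 v i) * D.2 i * PP N v))) (Finset.mem_univ i)
  have h3 := hsq_nonneg (nrm v.1 (PP N v))
  have h2 := hsq_nonneg (D.1 * PP N v)
  have h5 := hsq_nonneg (nrm (v.2 i) (QQ N2 v i))
  linarith

/-- **T1 + T3.** -/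
theorem mapOK {p : ℕ} (N : Tube (Fin (p + 1))) (N2 : Tube (Fin 2)) :
    MapOK ((p + 1) ^ 2 + 4 * Fintype.card I) (p + 1) p I N N2 where
  proj P Q hP hQ := by
    rw [sq]
    exact isProj_piMat hP hQ
  fix D v P Q hP hQ := piMat_mulVec_xiVec D v hP.idem fun i => (hQ i).idem
  cpt := ⟨K0 (p + 1) I N N2, isCompact_K0 N N2, K0_subset N N2, fun _ _ _ h => mem_K0 h.le⟩

end target

end Vale.Agent.P093.A5
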