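import Vale.Agent.P093.A5.Defs
import Vale.Agent.P093.ALine.Tube

/-!
# P093, part A: the tube lemma in the interface `A5.Tube`

`A5.tube k : Tube k` (nearest rank one projection) and its first order expansion.
-/

open Matrix Topology
open Vale.Agent.P251.G (IsProj)

noncomputable section

namespace Vale.Agent.P093.A5

variable {k l : Type} [Fintype k] [Fintype l]

theorem hsq_eq (A : Matrix k l ℂ) : hsq A = ALine.hsq A := rfl

omit [Fintype k] in
theorem hm_eq (A : Matrix k k ℂ) : hm A = ALine.re A := rfl

/-- the nearest rank one projection -/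
def tube (k : Type) [Fintype k] [DecidableEq k] [Nonempty k] : Tube k where
  near := ALine.near
  isProj := ALine.isProj_near
  comm A hA := by
    have := ALine.near_comm A
    rwa [ALine.re_of_herm hA] at this
  near_proj P hP := ALine.near_of_isProj hP
  cont_near := by
    refine ALine.continuousOn_near.mono ?_
    rintro A ⟨hA, h⟩
    change ALine.dsq A < 1 / 16
    rw [ALine.dsq, ALine.re_of_herm hA]
    exact h
  cont_dsq := by
    refine (ALine.continuous_dsq (I := k)).continuousOn.congr ?_
    intro A hA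
    change ALine.hsq (A - ALine.near A) = ALine.dsq A
    rw [ALine.dsq, ALine.re_of_herm hA]

variable [DecidableEq k] [Nonempty k]

@[simp] theorem tube_near (A : Matrix k k ℂ) : (tube k).near A = ALine.near A := rfl

theorem tube_dsq {A : Matrix k k ℂ} (hA : Aᴴ = A) : (tube k).dsq A = ALine.dsq A := by
  change ALine.hsq (A - ALine.near A) = ALine.dsq A
  rw [ALine.dsq, ALine.re_of_herm hA]

/-- minimality -/
theorem tube_dsq_le {A P : Matrix k k ℂ} (hA : Aᴴ = A) (hP : IsProj 1 P) :
    (tube k).dsq A ≤ hsq (A - P) := by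
  rw [tube_dsq hA]
  have := ALine.dsq_le A hP
  rwa [ALine.re_of_herm hA] at this

/-- the nearest projection only depends on the hermitian part -/
theorem tube_near_hm (A : Matrix k k ℂ) : (tube k).near (hm A) = (tube k).near A := by
  rw [tube_near, tube_near, hm_eq]
  conv_rhs => rw [← ALine.re_add_im A]
  rw [ALine.near_add_smul (ALine.re_herm A) (ALine.im_herm A)]

/-- uniqueness -/
theorem tube_near_unique {A P : Matrix k k ℂ} (hA : Aᴴ = A) (hP : IsProj 1 P)
    (h1 : A * P = P * A) (h2 : hsq (A - P) < 1 / 16) : (tube k).near A = P := by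
  refine ALine.near_unique hP ?_ ?_
  · rw [ALine.re_of_herm hA]; exact h1
  · rw [ALine.re_of_herm hA]; exact h2

theorem tube_near_sub_le {P η : Matrix k k ℂ} (hP : IsProj 1 P) (hη : ηᴴ = η) :
    hsq ((tube k).near (P + η) - P) ≤ 4 * hsq η := by
  have h := ALine.fn_near_sub_le hP hη
  have h0 := ALine.fn_nonneg (ALine.near (P + η) - P)
  rw [hsq_eq, hsq_eq, ← ALine.fn_sq, ← ALine.fn_sq]
  calc ALine.fn ((tube k).near (P + η) - P) ^ 2 ≤ (2 * ALine.fn η) ^ 2 := by
        exact pow_le_pow_left₀ h0 h 2
    _ = _ := by ring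

/-- **first order expansion** -/
theorem tube_near_expand {P η : Matrix k k ℂ} (hP : IsProj 1 P) (hη : ηᴴ = η) :
    hsq ((tube k).near (P + η) - P - (P * η * (1 - P) + (1 - P) * η * P)) ≤
      256 * (hsq η) ^ 2 := by
  have h := ALine.fn_near_expand hP hη
  have h0 := ALine.fn_nonneg (ALine.near (P + η) - P - ALine.offd P η)
  rw [hsq_eq, hsq_eq, ← ALine.fn_sq, ← ALine.fn_sq]
  calc ALine.fn ((tube k).near (P + η) - P - (P * η * (1 - P) + (1 - P) * η * P)) ^ 2
      ≤ (16 * ALine.fn η ^ 2) ^ 2 := pow_le_pow_left₀ h0 h 2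
    _ = _ := by ring

end Vale.Agent.P093.A5
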