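import Vale.Agent.P093.Final.Good
import Mathlib.LinearAlgebra.Matrix.Kronecker

/-!
# P093, part A: the map `a(D, v)` into the Thom space `Th n JJ`

Sphere variable `v = (A, (T_i)_i)`: one complex `m × m` matrix and one complex `2 × 2` matrix for
every Hopf block `i`. Data `D = (M, (F_i)_i)`: `M : ℂ^m → ℂ^p`, `F_i : ℂ^m → ℂ^2` linear (as
matrices). `P`, `Q_i` are the rank one projections nearest to the hermitian parts of `A`, `T_i`.
The bundle over the space of all `(P, (Q_i))` has the fibre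
`{(B, M', (B_i, X_i)) : (1 - P) B P = 0, M' P = M', (1 - Q_i) B_i Q_i = 0, (1 - Q_i) X_i P = X_i}`.
-/

open Matrix OnePoint Topology
open scoped Kronecker
open Vale.Agent.P251.G (IsProj Th nsq)

namespace Vale.Agent.P093.A5

section hsq

variable {k l : Type} [Fintype k] [Fintype l]

/-- squared Frobenius norm -/
def hsq (A : Matrix k l ℂ) : ℝ := ∑ i, ∑ j, Complex.normSq (A i j)

/-- a matrix as a vector -/
def mvec (A : Matrix k l ℂ) : k × l → ℂ := fun q => A q.1 q.2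

/-- hermitian part -/
noncomputable def hm (A : Matrix k k ℂ) : Matrix k k ℂ := (1 / 2 : ℂ) • (A + Aᴴ)

variable [DecidableEq k]

/-- the normal coordinate of `A` at the rank one projection `P` -/
def nrm (A P : Matrix k k ℂ) : Matrix k k ℂ := (A - P) - (1 - P) * (A - P) * P

/-- Interface of the tube lemma (block A1): the rank one projection nearest to a hermitian
matrix. -/
structure Tube (k : Type) [Fintype k] [DecidableEq k] where
  near : Matrix k k ℂ → Matrix k k ℂ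
  isProj : ∀ A, IsProj 1 (near A)
  comm : ∀ A, Aᴴ = A → A * near A = near A * A
  near_proj : ∀ P, IsProj 1 P → near P = P
  cont_near : ContinuousOn near {A | Aᴴ = A ∧ hsq (A - near A) < 1 / 16}
  cont_dsq : ContinuousOn (fun A => hsq (A - near A)) {A | Aᴴ = A}

/-- squared distance of a hermitian matrix to the rank one projections -/
def Tube.dsq (N : Tube k) (A : Matrix k k ℂ) : ℝ := hsq (A - N.near A)

end hsq

/-- index set of the vectors of the target bundle -/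
abbrev JJ (m p : ℕ) (I : Type) : Type :=
  ((Fin m × Fin m) ⊕ (Fin p × Fin m)) ⊕ (((Fin 2 × Fin 2) ⊕ (Fin 2 × Fin m)) × I)

/-- the sphere variable `v = (A, T)` -/
abbrev VV (m : ℕ) (I : Type) : Type :=
  Matrix (Fin m) (Fin m) ℂ × (I → Matrix (Fin 2) (Fin 2) ℂ)

/-- the data `D = (M, F)` -/
abbrev Dat (m p : ℕ) (I : Type) : Type :=
  Matrix (Fin p) (Fin m) ℂ × (I → Matrix (Fin 2) (Fin m) ℂ)

section

variable {m p : ℕ} {I : Type} [Fintype I] [DecidableEq I]

/-- the projection onto the fibre over `(P, (Q_i))` -/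
def piMat (p : ℕ) (P : Matrix (Fin m) (Fin m) ℂ) (Q : I → Matrix (Fin 2) (Fin 2) ℂ) :
    Matrix (JJ m p I) (JJ m p I) ℂ :=
  fromBlocks (fromBlocks (1 - (1 - P) ⊗ₖ Pᵀ) 0 0 ((1 : Matrix (Fin p) (Fin p) ℂ) ⊗ₖ Pᵀ)) 0 0
    (blockDiagonal fun i => fromBlocks (1 - (1 - Q i) ⊗ₖ (Q i)ᵀ) 0 0 ((1 - Q i) ⊗ₖ Pᵀ))

/-- the vector over `(P, (Q_i))` -/
def xiVec (D : Dat m p I) (v : VV m I) (P : Matrix (Fin m) (Fin m) ℂ)
    (Q : I → Matrix (Fin 2) (Fin 2) ℂ) : JJ m p I → ℂ :=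
  Sum.elim (Sum.elim (mvec ((8 : ℂ) • nrm v.1 P)) (mvec (D.1 * P)))
    fun q => Sum.elim (mvec ((8 : ℂ) • nrm (v.2 q.2) (Q q.2)))
      (mvec ((1 - Q q.2) * D.2 q.2 * P)) q.1

variable (N : Tube (Fin m)) (N2 : Tube (Fin 2))

/-- `P` -/
noncomputable def PP (v : VV m I) : Matrix (Fin m) (Fin m) ℂ := N.near (hm v.1)

/-- `Q_i` -/
noncomputable def QQ (v : VV m I) (i : I) : Matrix (Fin 2) (Fin 2) ℂ := N2.near (hm (v.2 i))

/-- the vector of the map `a` -/
noncomputable def xi (D : Dat m p I) (v : VV m I) : JJ m p I → ℂ :=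
  xiVec D v (PP N v) (QQ N2 v)

/-- the open tube -/
def tubeSet (m : ℕ) (I : Type) (N : Tube (Fin m)) (N2 : Tube (Fin 2)) : Set (VV m I) :=
  {v | N.dsq (hm v.1) < 1 / 16 ∧ ∀ i, N2.dsq (hm (v.2 i)) < 1 / 16}

open Classical in
/-- **the map `a`** -/
noncomputable def aMap (n : ℕ) (D : Dat m p I) (v : OnePoint (VV m I)) : OnePoint (Th n (JJ m p I)) :=
  match v with
  | ∞ => ∞
  | OnePoint.some v =>
    if h : v ∈ tubeSet m I N N2 ∧ nsq (xi N N2 D v) < 1 ∧
        IsProj n (piMat p (PP N v) (QQ N2 v)) ∧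
        piMat p (PP N v) (QQ N2 v) *ᵥ xi N N2 D v = xi N N2 D v then
      OnePoint.some (Th.mk (piMat p (PP N v) (QQ N2 v)) ((1 - nsq (xi N N2 D v))⁻¹ • xi N N2 D v)
        h.2.2.1 (by rw [mulVec_smul, h.2.2.2]))
    else ∞

/-- the reference data: `M₀ = (z_1, .., z_p)`, `E₀ = (z_0, 0)` -/
def datRef (m p : ℕ) (I : Type) : Dat m p I :=
  (fun i j => if (j : ℕ) = i + 1 then 1 else 0,
    fun _ i j => if (i : ℕ) = 0 ∧ (j : ℕ) = 0 then 1 else 0)

end

end Vale.Agent.P093.A5
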