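import Vale.Agent.P093.A5.CSmall
import Vale.Agent.P093.A5.Norm
import Vale.Agent.P093.A5.TubeInst
import Vale.Agent.P093.A.Glue

/-!
# P093, part A: end of the proof

`zThm_of_zero`, `staticThm_of_zero` : part A from the block ZERO.
-/

namespace Vale.Agent.P093.A5

universe u

theorem zThm_of_zero
    (h : ∀ (p : ℕ) (I : Type) [Fintype I] [DecidableEq I],
      ZeroOK p I (tube (Fin (p + 1))) (tube (Fin 2)) ((p + 1) ^ 2 + 4 * Fintype.card I)) :
    A.ZThm.{u} :=
  zThm_of (fun k => tube (Fin (k + 1))) fun p I _ _ =>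
    ⟨(p + 1) ^ 2 + 4 * Fintype.card I, mapOK _ _, h p I⟩

theorem staticThm_of_zero
    (h : ∀ (p : ℕ) (I : Type) [Fintype I] [DecidableEq I],
      ZeroOK p I (tube (Fin (p + 1))) (tube (Fin 2)) ((p + 1) ^ 2 + 4 * Fintype.card I)) :
    Final.StaticThm.{u} :=
  A.staticThm_of_zThm (zThm_of_zero h)

end Vale.Agent.P093.A5
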