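import Vale.Agent.P093.A.Zero
import Vale.Agent.P093.A5.ZThm

/-!
# P093, part A: the linear static theorem
-/

namespace Vale.Agent.P093.A5

universe u

/-- part A in the form of `A/ZSet.lean` -/
theorem zThm : A.ZThm.{u} := zThm_of_zero fun p I _ _ => A.Zero.zeroOK p I

/-- **part A.** -/
theorem staticThm : Final.StaticThm.{u} := staticThm_of_zero fun p I _ _ => A.Zero.zeroOK p I

end Vale.Agent.P093.A5
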