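import Vale.Agent.P251.G.ThMap
import Vale.Agent.P251.G.CellGr
import Vale.Agent.P093.A5.Defs

/-!
# P093, part A: the target projection

`piMat p P Q` is a hermitian projection of rank `(p + 1) ^ 2 + 4 card I` when `P` and `Q i` are of rank one;
it fixes `xiVec D v P Q`; at the base point it is a coordinate projection, and the fibre over it is
`thFib`.
-/

set_option linter.unusedSectionVars false

open Matrix
open scoped Kronecker
open Vale.Agent.P251.G

noncomputable section

namespace Vale.Agent.P093.A5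

section algebra

variable {I J K : Type} [Fintype I] [Fintype J] [Fintype K] {a b : ℕ}

theorem isProj_transpose {P : Matrix I I ℂ} (h : IsProj a P) : IsProj a Pᵀ where
  idem := by rw [← transpose_mul, h.idem]
  herm := by
    ext i j
    have h1 := congrFun (congrFun h.herm j) i
    simpa [conjTranspose_apply, transpose_apply] using h1
  trace := by rw [trace_transpose, h.trace]

theorem isProj_kron {P : Matrix I I ℂ} {Q : Matrix J J ℂ} (h : IsProj a P) (h' : IsProj b Q) :
    IsProj (a * b) (P ⊗ₖ Q) where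
  idem := by rw [← mul_kronecker_mul, h.idem, h'.idem]
  herm := by rw [conjTranspose_kronecker, h.herm, h'.herm]
  trace := by rw [trace_kronecker, h.trace, h'.trace]; push_cast; rfl

theorem isProj_blockDiagonal [DecidableEq K] {P : K → Matrix I I ℂ} (h : ∀ k, IsProj a (P k)) :
    IsProj (Fintype.card K * a) (blockDiagonal P) where
  idem := by
    rw [← blockDiagonal_mul]
    congr 1
    funext k
    exact (h k).idem
  herm := by
    rw [blockDiagonal_conjTranspose]
    congr 1
    funext k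
    exact (h k).herm
  trace := by
    rw [trace_blockDiagonal]
    simp [(h _).trace]

theorem mvec_sub (M N : Matrix I J ℂ) : mvec (M - N) = mvec M - mvec N := rfl

theorem kron_mulVec (A : Matrix I I ℂ) (Q : Matrix J J ℂ) (M : Matrix I J ℂ) :
    (A ⊗ₖ Qᵀ) *ᵥ mvec M = mvec (A * M * Q) := by
  funext ⟨i, j⟩
  simp only [mulVec, dotProduct, kroneckerMap_apply, transpose_apply, mvec, Matrix.mul_apply,
    Fintype.sum_prod_type, Finset.sum_mul]
  rw [Finset.sum_comm]
  refine Finset.sum_congr rfl fun x _ => Finset.sum_congr rfl fun y _ => ?_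
  ring

theorem blockDiagonal_mulVec_apply [DecidableEq K] (M : K → Matrix I I ℂ) (v : I × K → ℂ) (i : I)
    (k : K) : (blockDiagonal M *ᵥ v) (i, k) = (M k *ᵥ fun i' => v (i', k)) i := by
  simp only [mulVec, dotProduct, blockDiagonal_apply, Fintype.sum_prod_type]
  refine Finset.sum_congr rfl fun x _ => ?_
  rw [Finset.sum_eq_single k]
  · simp
  · intro b _ hb
    rw [if_neg fun h => hb h.symm, zero_mul]
  · intro h; exact absurd (Finset.mem_univ k) h

end algebra

section corner

variable {I : Type} [Fintype I] [DecidableEq I] {p : ℕ}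

theorem corner_mulVec (P B : Matrix I I ℂ) :
    (1 - (1 - P) ⊗ₖ Pᵀ) *ᵥ mvec B = mvec (B - (1 - P) * B * P) := by
  rw [sub_mulVec, one_mulVec, kron_mulVec, mvec_sub]

theorem isProj_corner {P : Matrix I I ℂ} (h : IsProj 1 P) :
    IsProj (Fintype.card I * Fintype.card I - (Fintype.card I - 1)) (1 - (1 - P) ⊗ₖ Pᵀ) := by
  have h1 := Cell.isProj_compl (isProj_kron (Cell.isProj_compl h) (isProj_transpose h))
  rw [Fintype.card_prod, mul_one] at h1
  exact h1

theorem right_mulVec {J : Type} [Fintype J] [DecidableEq J] (P : Matrix I I ℂ)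
    (M : Matrix J I ℂ) : ((1 : Matrix J J ℂ) ⊗ₖ Pᵀ) *ᵥ mvec M = mvec (M * P) := by
  rw [kron_mulVec, Matrix.one_mul]

theorem isProj_right {J : Type} [Fintype J] [DecidableEq J] {P : Matrix I I ℂ}
    (h : IsProj 1 P) : IsProj (Fintype.card J) ((1 : Matrix J J ℂ) ⊗ₖ Pᵀ) := by
  have h1 := isProj_kron (IsProj.one (I := J)) (isProj_transpose h)
  rwa [mul_one] at h1

theorem isProj_compl_kron {P : Matrix I I ℂ} (h : IsProj 1 P) {Q : Matrix (Fin 2) (Fin 2) ℂ}
    (hQ : IsProj 1 Q) : IsProj 1 ((1 - Q) ⊗ₖ Pᵀ) := by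
  have h1 := isProj_kron (Cell.isProj_compl hQ) (isProj_transpose h)
  simpa using h1

theorem nrm_corner (A : Matrix I I ℂ) {P : Matrix I I ℂ} (h : P * P = P) :
    nrm A P - (1 - P) * nrm A P * P = nrm A P := by
  have h1 : (1 - P) * (1 - P) = 1 - P := by
    rw [sub_mul, one_mul, mul_sub, mul_one, h, sub_self, sub_zero]
  have h2 : (1 - P) * ((1 - P) * (A - P) * P) * P = (1 - P) * (A - P) * P := by
    calc (1 - P) * ((1 - P) * (A - P) * P) * P = ((1 - P) * (1 - P)) * (A - P) * (P * P) := by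
          simp only [Matrix.mul_assoc]
      _ = _ := by rw [h1, h]
  have h3 : (1 - P) * nrm A P * P = 0 := by
    rw [nrm, mul_sub, sub_mul, h2, sub_self]
  rw [h3, sub_zero]

end corner

section target

variable {m p : ℕ} {I : Type} [Fintype I] [DecidableEq I]

/-- the vectors of the target -/
def vecJ (B : Matrix (Fin m) (Fin m) ℂ) (M : Matrix (Fin p) (Fin m) ℂ)
    (C : I → Matrix (Fin 2) (Fin 2) ℂ) (X : I → Matrix (Fin 2) (Fin m) ℂ) : JJ m p I → ℂ :=
  Sum.elim (Sum.elim (mvec B) (mvec M)) fun q => Sum.elim (mvec (C q.2)) (mvec (X q.2)) q.1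

theorem xiVec_eq (D : Dat m p I) (v : VV m I) (P : Matrix (Fin m) (Fin m) ℂ)
    (Q : I → Matrix (Fin 2) (Fin 2) ℂ) : xiVec D v P Q =
      vecJ ((8 : ℂ) • nrm v.1 P) (D.1 * P) (fun i => (8 : ℂ) • nrm (v.2 i) (Q i))
        (fun i => (1 - Q i) * D.2 i * P) := rfl

theorem vecJ_surj (v : JJ m p I → ℂ) : ∃ B M C X, v = vecJ B M C X :=
  ⟨Matrix.of fun i j => v (.inl (.inl (i, j))), Matrix.of fun i j => v (.inl (.inr (i, j))),
    fun k => Matrix.of fun i j => v (.inr (.inl (i, j), k)),
    fun k => Matrix.of fun i j => v (.inr (.inr (i, j), k)), by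
      funext a
      rcases a with (⟨i, j⟩ | ⟨i, j⟩) | ⟨⟨i, j⟩ | ⟨i, j⟩, k⟩ <;> rfl⟩

theorem piMat_mulVec (P : Matrix (Fin m) (Fin m) ℂ) (Q : I → Matrix (Fin 2) (Fin 2) ℂ)
    (B : Matrix (Fin m) (Fin m) ℂ) (M : Matrix (Fin p) (Fin m) ℂ)
    (C : I → Matrix (Fin 2) (Fin 2) ℂ) (X : I → Matrix (Fin 2) (Fin m) ℂ) :
    piMat p P Q *ᵥ vecJ B M C X = vecJ (B - (1 - P) * B * P) (M * P)
      (fun i => C i - (1 - Q i) * C i * Q i) (fun i => (1 - Q i) * X i * P) := by
  rw [piMat, fromBlocks_mulVec]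
  funext a
  rcases a with a | ⟨a, k⟩
  · rw [Sum.elim_inl, zero_mulVec, add_zero]
    have e2 : vecJ B M C X ∘ Sum.inl = Sum.elim (mvec B) (mvec M) := rfl
    rw [e2, fromBlocks_mulVec]
    rcases a with a | a
    · simp only [Sum.elim_inl, Sum.elim_comp_inl, Sum.elim_comp_inr, zero_mulVec, add_zero,
        corner_mulVec, vecJ]
    · simp only [Sum.elim_inr, Sum.elim_inl, Sum.elim_comp_inl, Sum.elim_comp_inr, zero_mulVec,
        zero_add, right_mulVec, vecJ]
  · rw [Sum.elim_inr, zero_mulVec, zero_add, blockDiagonal_mulVec_apply]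
    have e2 : (fun i' => (vecJ B M C X ∘ Sum.inr) (i', k)) = Sum.elim (mvec (C k)) (mvec (X k)) :=
      rfl
    rw [e2, fromBlocks_mulVec]
    rcases a with a | a
    · simp only [Sum.elim_inl, Sum.elim_comp_inl, Sum.elim_comp_inr, zero_mulVec, add_zero,
        corner_mulVec, vecJ, Sum.elim_inr]
    · simp only [Sum.elim_inr, Sum.elim_comp_inl, Sum.elim_comp_inr, zero_mulVec,
        zero_add, kron_mulVec, vecJ]

theorem isProj_piMat_aux {P : Matrix (Fin m) (Fin m) ℂ} {Q : I → Matrix (Fin 2) (Fin 2) ℂ}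
    (hP : IsProj 1 P) (hQ : ∀ i, IsProj 1 (Q i)) :
    IsProj (m * m - (m - 1) + p + Fintype.card I * 4) (piMat p P Q) := by
  have h1 : IsProj (m * m - (m - 1)) (1 - (1 - P) ⊗ₖ Pᵀ) := by simpa using isProj_corner hP
  have h2 : IsProj p ((1 : Matrix (Fin p) (Fin p) ℂ) ⊗ₖ Pᵀ) := by
    simpa using isProj_right (J := Fin p) hP
  have h3 : ∀ i, IsProj (3 + 1)
      (fromBlocks (1 - (1 - Q i) ⊗ₖ (Q i)ᵀ) 0 0 ((1 - Q i) ⊗ₖ Pᵀ)) := fun i =>
    IsProj.fromBlocks (by simpa using isProj_corner (hQ i)) (isProj_compl_kron hP (hQ i))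
  exact (h1.fromBlocks h2).fromBlocks (isProj_blockDiagonal h3)

/-- **T1.** the rank -/
theorem isProj_piMat {P : Matrix (Fin (p + 1)) (Fin (p + 1)) ℂ}
    {Q : I → Matrix (Fin 2) (Fin 2) ℂ} (hP : IsProj 1 P) (hQ : ∀ i, IsProj 1 (Q i)) :
    IsProj ((p + 1) * (p + 1) + 4 * Fintype.card I) (piMat p P Q) := by
  have h1 := isProj_piMat_aux (p := p) hP hQ
  have h2 : (p + 1) * (p + 1) - (p + 1 - 1) + p + Fintype.card I * 4 =
      (p + 1) * (p + 1) + 4 * Fintype.card I := by
    have h3 : p ≤ (p + 1) * (p + 1) := by nlinarith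
    omega
  rwa [h2] at h1

/-- **T1.** the vector is in the fibre -/
theorem piMat_mulVec_xiVec (D : Dat m p I) (v : VV m I) {P : Matrix (Fin m) (Fin m) ℂ}
    {Q : I → Matrix (Fin 2) (Fin 2) ℂ} (hP : P * P = P) (hQ : ∀ i, Q i * Q i = Q i) :
    piMat p P Q *ᵥ xiVec D v P Q = xiVec D v P Q := by
  have hc : ∀ i, (1 - Q i) * (1 - Q i) = 1 - Q i := fun i => by
    rw [sub_mul, one_mul, mul_sub, mul_one, hQ, sub_self, sub_zero]
  rw [xiVec_eq, piMat_mulVec]
  congr 1
  · rw [Matrix.mul_smul, Matrix.smul_mul, ← smul_sub, nrm_corner _ hP]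
  · rw [Matrix.mul_assoc, hP]
  · funext i
    rw [Matrix.mul_smul, Matrix.smul_mul, ← smul_sub, nrm_corner _ (hQ i)]
  · funext i
    calc (1 - Q i) * ((1 - Q i) * D.2 i * P) * P = ((1 - Q i) * (1 - Q i)) * D.2 i * (P * P) := by
          simp only [Matrix.mul_assoc]
      _ = _ := by rw [hc, hP]

theorem continuous_kron {X : Type*} [TopologicalSpace X] {A B C D : Type}
    {f : X → Matrix A B ℂ} {g : X → Matrix C D ℂ} (hf : Continuous f) (hg : Continuous g) :
    Continuous fun x => f x ⊗ₖ g x := by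
  refine continuous_matrix fun i j => ?_
  simp only [kroneckerMap_apply]
  exact (hf.matrix_elem _ _).mul (hg.matrix_elem _ _)

theorem continuous_piMat : Continuous fun z : Matrix (Fin m) (Fin m) ℂ ×
    (I → Matrix (Fin 2) (Fin 2) ℂ) => piMat p z.1 z.2 := by
  unfold piMat
  refine Continuous.matrix_fromBlocks (Continuous.matrix_fromBlocks ?_ continuous_const
    continuous_const ?_) continuous_const continuous_const
    (Continuous.matrix_blockDiagonal (continuous_pi fun i => Continuous.matrix_fromBlocks ?_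
      continuous_const continuous_const ?_))
  · exact continuous_const.sub (continuous_kron (by fun_prop) (by fun_prop))
  · exact continuous_kron (by fun_prop) (by fun_prop)
  · exact continuous_const.sub (continuous_kron (by fun_prop) (by fun_prop))
  · exact continuous_kron (by fun_prop) (by fun_prop)

theorem continuous_nrm {k : Type} [Fintype k] [DecidableEq k] :
    Continuous fun z : Matrix k k ℂ × Matrix k k ℂ => nrm z.1 z.2 := by
  unfold nrm
  fun_prop

theorem continuous_mvec {k l : Type} [Fintype k] [Fintype l] :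
    Continuous (mvec : Matrix k l ℂ → k × l → ℂ) :=
  continuous_pi fun a => by unfold mvec; fun_prop

/-- joint continuity of the vector -/
theorem continuous_xiVec : Continuous fun z : (Dat m p I × VV m I) ×
    (Matrix (Fin m) (Fin m) ℂ × (I → Matrix (Fin 2) (Fin 2) ℂ)) =>
      xiVec z.1.1 z.1.2 z.2.1 z.2.2 := by
  refine continuous_pi fun a => ?_
  rcases a with (a | a) | ⟨a | a, k⟩
  · have h : Continuous fun z : (Dat m p I × VV m I) ×
        (Matrix (Fin m) (Fin m) ℂ × (I → Matrix (Fin 2) (Fin 2) ℂ)) =>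
        mvec ((8 : ℂ) • nrm z.1.2.1 z.2.1) :=
      continuous_mvec.comp (by unfold nrm; fun_prop)
    exact (continuous_apply a).comp h
  · have h : Continuous fun z : (Dat m p I × VV m I) ×
        (Matrix (Fin m) (Fin m) ℂ × (I → Matrix (Fin 2) (Fin 2) ℂ)) =>
        mvec (z.1.1.1 * z.2.1) := continuous_mvec.comp (by fun_prop)
    exact (continuous_apply a).comp h
  · have h : Continuous fun z : (Dat m p I × VV m I) ×
        (Matrix (Fin m) (Fin m) ℂ × (I → Matrix (Fin 2) (Fin 2) ℂ)) =>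
        mvec ((8 : ℂ) • nrm (z.1.2.2 k) (z.2.2 k)) :=
      continuous_mvec.comp (by unfold nrm; fun_prop)
    exact (continuous_apply a).comp h
  · have h : Continuous fun z : (Dat m p I × VV m I) ×
        (Matrix (Fin m) (Fin m) ℂ × (I → Matrix (Fin 2) (Fin 2) ℂ)) =>
        mvec ((1 - z.2.2 k) * z.1.1.2 k * z.2.1) := continuous_mvec.comp (by fun_prop)
    exact (continuous_apply a).comp h

end target

end Vale.Agent.P093.A5
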